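import Vale.Agent.P099.Flow.Geom
import Vale.Agent.P099.Cutoff

/-!
# P099: the states without a complete orbit form a null set
-/

noncomputable section

namespace Vale.Agent.P099

open MeasureTheory Set Complex Filter Topology
open scoped ComplexConjugate

theorem line_null (V v : ℂ) (hv : v ≠ 0) :
    (volume : Measure ℂ) {x | ((V - x) * conj v).im = 0} = 0 := by
  have hsub : {x : ℂ | ((V - x) * conj v).im = 0} ⊆
      (fun x => x + -V) ⁻¹' (Submodule.span ℝ {v} : Set ℂ) := by
    intro x hx
    simp only [mem_ofPred_eq] at hx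
    have hn : ((Complex.normSq v : ℝ) : ℂ) ≠ 0 :=
      Complex.ofReal_ne_zero.2 (Complex.normSq_eq_zero.not.2 hv)
    refine Submodule.mem_span_singleton.2 ⟨-((V - x) * conj v).re / Complex.normSq v, ?_⟩
    have e : (((V - x) * conj v).re : ℂ) = (V - x) * conj v := Complex.ext rfl (by simp [hx])
    rw [Complex.real_smul]
    push_cast
    rw [e, div_mul_eq_mul_div, div_eq_iff hn, ← Complex.mul_conj]
    ring
  refine measure_mono_null hsub ?_
  rw [measure_preimage_add_right]
  refine Measure.addHaar_submodule _ _ fun htop => ?_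
  have h := finrank_span_singleton (K := ℝ) hv
  rw [htop, finrank_top, Complex.finrank_real_complex] at h
  omega

/-- The states whose line passes through `V`. -/
def lineThrough (V : ℂ) : Set Phase := {q | ((V - q.1) * conj (vec q.2)).im = 0}

theorem isClosed_lineThrough (V : ℂ) : IsClosed (lineThrough V) :=
  isClosed_eq (Complex.continuous_im.comp ((continuous_const.sub continuous_fst).mul
    (Complex.continuous_conj.comp (continuous_vec.comp continuous_snd)))) continuous_const

theorem mem_lineThrough {V : ℂ} {q : Phase} : q ∈ lineThrough V ↔ ∃ t, (shift t q).1 = V := by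
  have hn : vec q.2 * conj (vec q.2) = 1 := by
    rw [Complex.mul_conj, Complex.normSq_eq_norm_sq, norm_vec]
    simp
  constructor
  · intro h
    refine ⟨((V - q.1) * conj (vec q.2)).re, ?_⟩
    have e : ((((V - q.1) * conj (vec q.2)).re : ℝ) : ℂ) = (V - q.1) * conj (vec q.2) :=
      Complex.ext rfl (by simp [show ((V - q.1) * conj (vec q.2)).im = 0 from h])
    show q.1 + _ * vec q.2 = V
    rw [e]
    linear_combination (V - q.1) * hn
  · rintro ⟨t, rfl⟩
    show ((q.1 + (t : ℂ) * vec q.2 - q.1) * conj (vec q.2)).im = 0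
    rw [add_sub_cancel_left, mul_assoc, hn]
    simp

theorem lineThrough_null (V : ℂ) : phaseVol (lineThrough V) = 0 := by
  rw [Measure.prod_apply_symm (isClosed_lineThrough V).measurableSet]
  refine lintegral_eq_zero_of_ae_eq_zero (Eventually.of_forall fun θ => ?_)
  exact line_null V (vec θ) fun h => by simpa [h] using norm_vec θ

namespace Table

variable (M : Table)

theorem finite_corners : {z | M.Corner z}.Finite := by
  have : {z | M.Corner z} = ⋃ ij : Fin 3 × Fin 3,
      {z | ij.1 ≠ ij.2 ∧ M.ell ij.1 z = 0 ∧ M.ell ij.2 z = 0} := by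
    ext z
    simp [Table.Corner]
  rw [this]
  exact finite_iUnion fun ij => Set.Subsingleton.finite fun v hv w hw =>
    M.eq_of_ell hv.1 hv.2.1 hv.2.2 hw.2.1 hw.2.2

theorem measurePreserving_rpw (w : List (Fin 3)) :
    MeasurePreserving (M.rpw w) phaseVol phaseVol := by
  induction w with
  | nil => exact MeasurePreserving.id _
  | cons j w ih => exact (M.measurePreserving_rp j).comp ih

theorem not_good_eq : {p | ¬ M.Good p} =
    ⋃ (w : List (Fin 3)) (V ∈ {z | M.Corner z}), M.rpw w ⁻¹' lineThrough V := by
  ext p
  simp only [Table.Good, mem_ofPred_eq, not_forall, not_not, mem_iUnion, mem_preimage,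
    mem_lineThrough, rpw_shift, exists_prop]
  constructor
  · rintro ⟨w, t, h⟩
    exact ⟨w, _, h, t, rfl⟩
  · rintro ⟨w, V, h, t, rfl⟩
    exact ⟨w, t, h⟩

theorem measurableSet_good : MeasurableSet {p | M.Good p} := by
  have h : MeasurableSet {p | ¬ M.Good p} := by
    rw [M.not_good_eq]
    exact MeasurableSet.iUnion fun w => M.finite_corners.measurableSet_biUnion fun V _ =>
      (isClosed_lineThrough V).measurableSet.preimage (M.continuous_rpw w).measurable
  have := h.compl
  simp only [compl_ofPred, not_not] at this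
  exact this

theorem not_good_null : phaseVol {p | ¬ M.Good p} = 0 := by
  rw [M.not_good_eq]
  refine measure_iUnion_null fun w => (measure_biUnion_null_iff M.finite_corners.countable).2
    fun V _ => ?_
  rw [(M.measurePreserving_rpw w).measure_preimage
    (isClosed_lineThrough V).measurableSet.nullMeasurableSet, lineThrough_null]

theorem side_null (j : Fin 3) : (volume : Measure ℂ) {z | M.ell j z = 0} = 0 := by
  refine measure_mono_null (fun z hz => ?_)
    (line_null (-((M.b j : ℂ) * (Complex.I * M.u j))) (M.u j) (Complex.exp_ne_zero _))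
  simp only [mem_ofPred_eq] at hz ⊢
  have e : ((M.b j : ℂ) * (Complex.I * M.u j)) * conj (M.u j) = (M.b j : ℂ) * Complex.I := by
    linear_combination ((M.b j : ℂ) * Complex.I) * M.u_mul_conj j
  rw [sub_mul, neg_mul, e, mul_comm z]
  rw [Table.ell] at hz
  simp only [Complex.sub_im, Complex.neg_im, Complex.mul_im, Complex.ofReal_re, Complex.ofReal_im,
    Complex.I_re, Complex.I_im] at hz ⊢
  linarith

theorem measurableSet_start : MeasurableSet {p | M.Start p} := by
  have hell : ∀ i, Continuous fun p : Phase => M.ell i p.1 := fun i =>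
    (M.continuous_ellFun i).comp continuous_fst
  have heq : {p | M.Start p} = ((⋂ i, {p : Phase | 0 ≤ M.ell i p.1}) ∩
      (⋂ i, {p : Phase | M.ell i p.1 = 0}ᶜ ∪ {p : Phase | 0 < M.rate i p.2}) ∩
      (Prod.fst ⁻¹' {z | M.Corner z})ᶜ) ∩ {p | M.Good p} := by
    ext p
    simp only [Table.Start, Table.Reg, mem_ofPred_eq, mem_inter_iff, mem_iInter, mem_union,
      mem_compl_iff, mem_preimage, imp_iff_not_or, and_assoc]
  rw [heq]
  refine ((MeasurableSet.inter ?_ ?_).inter ?_).inter M.measurableSet_good
  · exact MeasurableSet.iInter fun i => (isClosed_le continuous_const (hell i)).measurableSet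
  · exact MeasurableSet.iInter fun i => (isClosed_eq (hell i) continuous_const).measurableSet.compl.union
      (isOpen_lt continuous_const ((M.continuous_rate i).comp continuous_snd)).measurableSet
  · exact (measurable_fst M.finite_corners.measurableSet).compl

theorem start_ae_dom : ({p | M.Start p} : Set Phase) =ᵐ[phaseVol] M.dom ×ˢ univ := by
  have h1 : ∀ᵐ p ∂phaseVol, M.Good p := by
    rw [ae_iff]
    exact M.not_good_null
  have h2 : ∀ᵐ p ∂phaseVol, ∀ j, M.ell j p.1 ≠ 0 := by
    refine ae_all_iff.2 fun j => ?_
    have : ∀ᵐ z ∂(volume : Measure ℂ), M.ell j z ≠ 0 := by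
      rw [ae_iff]
      simpa using M.side_null j
    exact Measure.quasiMeasurePreserving_fst.ae this
  rw [eventuallyEq_set]
  filter_upwards [h1, h2] with p hg hs
  simp only [mem_prod, mem_univ, and_true]
  refine ⟨fun h i => lt_of_le_of_ne (h.1.1 i) (Ne.symm (hs i)), fun h => ⟨⟨fun i => (h i).le,
    fun i e => absurd e (hs i), fun hc => hg [] 0 ?_⟩, hg⟩⟩
  simpa [shift_zero] using hc

end Table

end Vale.Agent.P099
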