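import Vale.Agent.P099.Flow.Forward

/-!
# P099: short steps are followed by the forward orbit
-/

noncomputable section

namespace Vale.Agent.P099

open MeasureTheory Set Complex Filter Topology
open scoped ComplexConjugate

namespace Table

variable (M : Table)

/-- If the end of a free segment is inside the table, no collision happens before it. -/
lemma lt_hit_of_mem_dom {p : Phase} (hR : M.Reg p) {t : ℝ} (h : (shift t p).1 ∈ M.dom) :
    t < M.hit p := by
  obtain ⟨_, _, _, j, hj, hjn⟩ := M.hit_spec hR
  by_contra hle
  have h1 : 0 < M.ell j (shift t p).1 := h j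
  rw [M.ell_shift] at h1 hj
  nlinarith [mul_nonpos_of_nonneg_of_nonpos (sub_nonneg.2 (not_lt.1 hle)) hjn.le]

/-- The forward orbit realises every short step. -/
theorem fwd_of_step {p q : Phase} {t : ℝ} (hp : M.Start p) (hd : p.1 ∈ M.dom) (ht : 0 ≤ t)
    (hs : M.Step t p q) : M.fwd t p = q := by
  rcases hs with ⟨⟨_, he⟩, rfl⟩ | ⟨j, ⟨_, hneg, hpos, hr⟩, rfl⟩
  · have h1 := M.lt_hit_of_mem_dom hp.1 he
    rw [M.fwd_eq hp (n := 0) (by simpa [colTime] using ht) (by simpa [colTime, col] using h1)]
    simp [colTime, col]
  · obtain ⟨hpos0, hin, hnn, i, hi, hin'⟩ := M.hit_spec hp.1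
    have ht0 : 0 < t := by
      rcases ht.eq_or_lt with rfl | h
      · rw [shift_zero] at hneg
        exact absurd (hd j) (not_lt.2 hneg.le)
      · exact h
    have hlt : M.hit p < t := by
      by_contra hle
      rcases (not_lt.1 hle).eq_or_lt with e | e
      · exact absurd (e ▸ hnn j) (not_le.2 hneg)
      · exact absurd (hin t ⟨ht0, e⟩ j) (not_lt.2 hneg.le)
    have hij : i = j := by
      by_contra hne
      have h1 := hpos i hne
      rw [M.ell_shift] at h1 hi
      nlinarith [mul_neg_of_pos_of_neg (sub_pos.2 hlt) hin']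
    subst hij
    have hnext : M.next p = M.rp i (shift (M.hit p) p) :=
      M.pre_of_ell ((hp.2.shift _).not_corner) hi
    have hend : shift (t - M.hit p) (M.next p) = M.rp i (shift t p) := by
      rw [hnext, ← M.rp_shift, shift_shift, sub_add_cancel]
    have h2 : t - M.hit p < M.hit (M.next p) :=
      M.lt_hit_of_mem_dom (M.start_next hp).1.1 (by rw [hend]; exact hr)
    rw [M.fwd_eq hp (n := 1) (by simpa [colTime, col] using hlt.le)
      (by simp only [colTime, col]; linarith)]
    simpa [colTime, col] using hend

end Table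

end Vale.Agent.P099
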