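import Vale.Agent.P099.Flow.Cont
import Vale.Agent.P099.Spec

/-!
# P099: uniqueness of the billiard flow almost everywhere
-/

noncomputable section

namespace Vale.Agent.P099

open MeasureTheory Set Complex Filter Topology
open scoped ComplexConjugate

variable {T : Triangle} {M : Table}

theorem TableOf.mem_dom (h : TableOf T M) {z : ℂ} : z ∈ T.dom ↔ ∀ i, 0 < M.ell i z := by
  rw [← h.1]
  rfl

theorem TableOf.mem_side (h : TableOf T M) {j : Fin 3} {z : ℂ} :
    z ∈ T.side j ↔ M.ell j z = 0 ∧ ∀ i, i ≠ j → 0 < M.ell i z := by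
  rw [h.2.1 j]
  rfl

theorem TableOf.not_dom_of_side (h : TableOf T M) {j : Fin 3} {z : ℂ} (hz : z ∈ T.side j) :
    z ∉ T.dom := fun hd => by
  have h1 := (h.mem_side.1 hz).1
  have h2 := h.mem_dom.1 hd j
  linarith

theorem TableOf.side_unique (h : TableOf T M) {i j : Fin 3} {z : ℂ} (hi : z ∈ T.side i)
    (hj : z ∈ T.side j) : i = j := by
  by_contra hne
  have h1 := (h.mem_side.1 hi).1
  have h2 := (h.mem_side.1 hj).2 i hne
  linarith

theorem TableOf.reflVel_injective (h : TableOf T M) (j : Fin 3) :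
    Function.Injective (T.reflVel j) := by
  intro v w hvw
  rw [h.2.2 j v, h.2.2 j w, Table.rlin, Table.rlin] at hvw
  have hu : M.u j ≠ 0 := Complex.exp_ne_zero _
  exact RingHom.injective _ (mul_left_cancel₀ (mul_ne_zero hu hu) hvw)

/-- The incoming and outgoing directions at a position. -/
def Triangle.DirRel (T : Triangle) (x : ℂ) (a b : Dir) : Prop :=
  (x ∈ T.dom ∧ a = b) ∨ ∃ j, x ∈ T.side j ∧ vec b = T.reflVel j (vec a)

theorem TableOf.dirRel_iff (h : TableOf T M) {x : ℂ} {a b a' b' : Dir} (h1 : T.DirRel x a b)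
    (h2 : T.DirRel x a' b') : a = a' ↔ b = b' := by
  rcases h1 with ⟨hd, rfl⟩ | ⟨j, hj, e⟩
  · rcases h2 with ⟨-, rfl⟩ | ⟨i, hi, -⟩
    · exact Iff.rfl
    · exact absurd hd (h.not_dom_of_side hi)
  · rcases h2 with ⟨hd', -⟩ | ⟨i, hi, e'⟩
    · exact absurd hd' (h.not_dom_of_side hj)
    · obtain rfl := h.side_unique hj hi
      constructor
      · rintro rfl
        exact vec_injective (e.trans e'.symm)
      · rintro rfl
        exact vec_injective (h.reflVel_injective j (e.symm.trans e'))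

/-- A good time has straight positions on both sides. -/
theorem Triangle.GoodAt.local_line {γ : ℝ → Phase} {t : ℝ} (hg : T.GoodAt γ t) :
    ∃ (a b : Dir) (δ : ℝ), 0 < δ ∧ T.DirRel (γ t).1 a b ∧ ∀ s : ℝ, 0 < s → s < δ →
      (γ (t - s)).1 = (γ t).1 - (s : ℂ) * vec a ∧ (γ (t + s)).1 = (γ t).1 + (s : ℂ) * vec b := by
  rcases hg with ⟨hd, δ, hδ, hs⟩ | ⟨j, a, b, hj, e, δ, hδ, hs⟩
  · refine ⟨(γ t).2, (γ t).2, δ, hδ, Or.inl ⟨hd, rfl⟩, fun s h0 h1 => ⟨?_, ?_⟩⟩
    · have := hs (-s) (by rwa [abs_neg, abs_of_pos h0])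
      rw [← sub_eq_add_neg] at this
      rw [this]
      push_cast
      ring
    · rw [hs s (by rwa [abs_of_pos h0])]
  · refine ⟨a, b, δ, hδ, Or.inr ⟨j, hj, e⟩, fun s h0 h1 => ?_⟩
    obtain ⟨⟨e1, -⟩, e2, -⟩ := hs s h0 h1
    exact ⟨by rw [e1], by rw [e2]⟩

theorem vec_eq_of_mul {s : ℝ} (hs : 0 < s) {a b : Dir}
    (h : (s : ℂ) * vec a = (s : ℂ) * vec b) : a = b :=
  vec_injective (mul_left_cancel₀ (Complex.ofReal_ne_zero.2 hs.ne') h)

/-- Two good curves with the same position and direction inside the domain at time `0` have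
the same position at all times. -/
theorem TableOf.pos_unique (h : TableOf T M) {γ γ' : ℝ → Phase}
    (hc : Continuous fun t => (γ t).1) (hc' : Continuous fun t => (γ' t).1)
    (hg : ∀ t, T.GoodAt γ t) (hg' : ∀ t, T.GoodAt γ' t) (h0 : γ 0 = γ' 0)
    (hd : (γ 0).1 ∈ T.dom) : ∀ t, (γ t).1 = (γ' t).1 := by
  set U : Set ℝ := {t | ∀ᶠ r in 𝓝 t, (γ r).1 = (γ' r).1} with hU
  have hUo : IsOpen U := isOpen_setOfPred_eventually_nhds
  have hU0 : (0 : ℝ) ∈ U := by
    rcases hg 0 with ⟨-, δ, hδ, hs⟩ | ⟨j, _, _, hj, -⟩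
    · rcases hg' 0 with ⟨-, δ', hδ', hs'⟩ | ⟨j, _, _, hj, -⟩
      · show ∀ᶠ r in 𝓝 (0 : ℝ), (γ r).1 = (γ' r).1
        filter_upwards [Metric.ball_mem_nhds (0 : ℝ) (lt_min hδ hδ')] with r hr
        rw [Metric.mem_ball, Real.dist_0_eq_abs, lt_min_iff] at hr
        have e := hs r hr.1
        have e' := hs' r hr.2
        rw [zero_add] at e e'
        rw [e, e', h0]
      · exact absurd (h0 ▸ hd) (h.not_dom_of_side hj)
    · exact absurd hd (h.not_dom_of_side hj)
  have hUc : closure U ⊆ U := by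
    intro t ht
    have hx : (γ t).1 = (γ' t).1 := by
      have hsub : U ⊆ {r | (γ r).1 = (γ' r).1} := fun r (hr : ∀ᶠ r' in 𝓝 r, _) => hr.self_of_nhds
      exact closure_minimal hsub (isClosed_eq hc hc') ht
    obtain ⟨a, b, δ, hδ, hr, hl⟩ := (hg t).local_line
    obtain ⟨a', b', δ', hδ', hr', hl'⟩ := (hg' t).local_line
    rw [← hx] at hr' hl'
    obtain ⟨r, hrU, hrt⟩ := Metric.mem_closure_iff.1 ht _ (lt_min hδ hδ')
    rw [Real.dist_eq, lt_min_iff] at hrt
    have hev : ∀ᶠ r' in 𝓝 r, (γ r').1 = (γ' r').1 := hrU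
    have heq : (γ r).1 = (γ' r).1 := hev.self_of_nhds
    rcases lt_trichotomy r t with hlt | rfl | hgt
    · have hs : 0 < t - r := sub_pos.2 hlt
      rw [abs_of_pos hs] at hrt
      have e := (hl _ hs hrt.1).1
      have e' := (hl' _ hs hrt.2).1
      rw [sub_sub_cancel] at e e'
      rw [e, e'] at heq
      have ha : a = a' := vec_eq_of_mul hs (sub_right_injective heq)
      exact eventually_eq_of hδ hδ' hx hl hl' ha ((h.dirRel_iff hr hr').1 ha)
    · exact hrU
    · have hs : 0 < r - t := sub_pos.2 hgt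
      rw [abs_sub_comm, abs_of_pos hs] at hrt
      have e := (hl _ hs hrt.1).2
      have e' := (hl' _ hs hrt.2).2
      rw [add_sub_cancel] at e e'
      rw [e, e'] at heq
      have hb : b = b' := vec_eq_of_mul hs (add_right_injective _ heq)
      exact eventually_eq_of hδ hδ' hx hl hl' ((h.dirRel_iff hr hr').2 hb) hb
  have huniv : U = univ :=
    IsClopen.eq_univ ⟨closure_subset_iff_isClosed.1 hUc, hUo⟩ ⟨0, hU0⟩
  intro t
  have hev : ∀ᶠ r in 𝓝 t, (γ r).1 = (γ' r).1 := (huniv ▸ mem_univ t : t ∈ U)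
  exact hev.self_of_nhds
where
  eventually_eq_of {γ γ' : ℝ → Phase} {t : ℝ} {a b a' b' : Dir} {δ δ' : ℝ} (hδ : 0 < δ)
      (hδ' : 0 < δ') (hx : (γ t).1 = (γ' t).1)
      (hl : ∀ s : ℝ, 0 < s → s < δ →
        (γ (t - s)).1 = (γ t).1 - (s : ℂ) * vec a ∧ (γ (t + s)).1 = (γ t).1 + (s : ℂ) * vec b)
      (hl' : ∀ s : ℝ, 0 < s → s < δ' →
        (γ' (t - s)).1 = (γ t).1 - (s : ℂ) * vec a' ∧ (γ' (t + s)).1 = (γ t).1 + (s : ℂ) * vec b')
      (ha : a = a') (hb : b = b') : ∀ᶠ r in 𝓝 t, (γ r).1 = (γ' r).1 := by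
    filter_upwards [Metric.ball_mem_nhds t (lt_min hδ hδ')] with r hr
    rw [Metric.mem_ball, Real.dist_eq, lt_min_iff] at hr
    rcases lt_trichotomy r t with hlt | rfl | hgt
    · have hs : 0 < t - r := sub_pos.2 hlt
      rw [abs_sub_comm, abs_of_pos hs] at hr
      have e := (hl _ hs hr.1).1
      have e' := (hl' _ hs hr.2).1
      rw [sub_sub_cancel] at e e'
      rw [e, e', ha]
    · exact hx
    · have hs : 0 < r - t := sub_pos.2 hgt
      rw [abs_of_pos hs] at hr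
      have e := (hl _ hs hr.1).2
      have e' := (hl' _ hs hr.2).2
      rw [add_sub_cancel] at e e'
      rw [e, e', hb]

/-- Inside the domain the direction at a good time is determined by the positions nearby. -/
theorem TableOf.eq_of_pos (h : TableOf T M) {γ γ' : ℝ → Phase} {t : ℝ} (hg : T.GoodAt γ t)
    (hg' : T.GoodAt γ' t) (hpos : ∀ r, (γ r).1 = (γ' r).1) (hd : (γ t).1 ∈ T.dom) :
    γ t = γ' t := by
  rcases hg with ⟨-, δ, hδ, hs⟩ | ⟨j, _, _, hj, -⟩
  · rcases hg' with ⟨-, δ', hδ', hs'⟩ | ⟨j, _, _, hj, -⟩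
    · set s := min δ δ' / 2 with hs2
      have hs0 : 0 < s := half_pos (lt_min hδ hδ')
      have hsm : s < min δ δ' := half_lt_self (lt_min hδ hδ')
      have hlt := lt_min_iff.1 hsm
      have e := hpos (t + s)
      rw [hs s (by rw [abs_of_pos hs0]; exact hlt.1),
        hs' s (by rw [abs_of_pos hs0]; exact hlt.2), ← hpos t] at e
      exact Prod.ext (hpos t) (vec_eq_of_mul hs0 (add_right_injective _ e))
    · exact absurd (hpos t ▸ hd) (h.not_dom_of_side hj)
  · exact absurd hd (h.not_dom_of_side hj)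

theorem TableOf.ae_mem_of_null (h : TableOf T M) {Ω : Set Phase} (hΩ : T.μ Ωᶜ = 0) :
    ∀ᵐ p ∂M.m0, p ∈ Ω := by
  rw [Triangle.μ, ← h.1] at hΩ
  simp only [Measure.smul_apply, smul_eq_mul, mul_eq_zero, ENNReal.inv_eq_zero] at hΩ
  exact mem_ae_iff.2 (hΩ.resolve_left M.volume_dom_finite.ne)

/-- Any billiard flow agrees almost everywhere with a flow of the table at every time. -/
theorem TableOf.flow_unique (h : TableOf T M) (D : FlowData M) (hD : T.IsBilliardFlow D.Φ)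
    (Φ' : ℝ → Phase → Phase) (hΦ' : T.IsBilliardFlow Φ') (t : ℝ) : Φ' t =ᵐ[M.m0] D.Φ t := by
  obtain ⟨Ω, -, hnull, hgood⟩ := hD
  obtain ⟨Ω', -, hnull', hgood'⟩ := hΦ'
  filter_upwards [h.ae_mem_of_null hnull, h.ae_mem_of_null hnull',
    (D.pres t).quasiMeasurePreserving.ae M.ae_mem_dom] with p hp hp' hin
  obtain ⟨hp0, h00, hc, hg⟩ := hgood p hp
  obtain ⟨-, h00', hc', hg'⟩ := hgood' p hp'
  have hpos := h.pos_unique (γ := fun r => D.Φ r p) (γ' := fun r => Φ' r p) hc hc' hg hg'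
    (h00.trans h00'.symm) (by rwa [h00])
  exact (h.eq_of_pos (hg t) (hg' t) hpos (h.1 ▸ hin)).symm

end Vale.Agent.P099
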