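import Vale.Agent.P099.Flow.Orbit
import Vale.Agent.P099.Flow.StepFwd
import Vale.Agent.P099.Flow.Null
import Vale.Agent.P099.Flow.Unique

/-!
# P099: existence, uniqueness and continuity of the billiard flow
-/

noncomputable section

namespace Vale.Agent.P099

open MeasureTheory Set Complex Filter Topology
open scoped ComplexConjugate

namespace Table

variable (M : Table)

/-- A composition of reflections as a measurable equivalence. -/
def rpwE : List (Fin 3) → Phase ≃ᵐ Phase
  | [] => MeasurableEquiv.refl _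
  | j :: w => (rpwE w).trans (M.rpE j)

@[simp] lemma rpwE_apply (w : List (Fin 3)) (p : Phase) : M.rpwE w p = M.rpw w p := by
  induction w with
  | nil => rfl
  | cons j w ih => simp [rpwE, MeasurableEquiv.trans_apply, ih]

lemma measurePreserving_flow (t : ℝ) : MeasurePreserving (M.flow t) M.m0 M.m0 := by
  refine measurePreserving_of_pieces M (M.flow t) {p | M.Start p} M.measurableSet_start
    M.start_ae_dom (fun w => {p | M.flow t p = M.rpw w (shift t p)})
    (fun w => (shiftE t).trans (M.rpwE w)) (fun w => ?_) (fun w => ?_) (fun p hp => ?_)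
    (fun w p hp => ?_) (fun p hp => M.flow_of_not_start hp t) (M.bijOn_flow t)
  · exact measurableSet_eq_fun (M.measurable_flow M.measurableSet_start t)
      ((M.continuous_rpw w).comp (continuous_shift t)).measurable
  · have e : ⇑((shiftE t).trans (M.rpwE w)) = M.rpw w ∘ shift t := by funext p; simp
    rw [e]
    exact (M.measurePreserving_rpw w).comp (measurePreserving_shift t)
  · exact mem_iUnion.2 (M.exists_flow_eq_rpw hp t)
  · simpa using hp.1

lemma ae_start : ∀ᵐ p ∂M.m0, M.Start p := by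
  rw [M.m0_eq, ← Measure.restrict_congr_set M.start_ae_dom]
  exact ae_restrict_mem M.measurableSet_start

lemma flipDir_shift_back (t : ℝ) (p : Phase) :
    shift (-t) (flipDir p) = flipDir (shift t p) :=
  (flipDir_shift t p).symm

lemma rev_of_mem_dom {p : Phase} (h : p.1 ∈ M.dom) : M.rev p = flipDir p := M.rev_of_pos h

lemma step_dom {t : ℝ} {p q : Phase} (h : M.Step t p q) : q.1 ∈ M.dom := by
  rcases h with ⟨hi, rfl⟩ | ⟨j, hc, rfl⟩
  exacts [hi.2, hc.2.2.2]

lemma step_flipDir {t : ℝ} {p q : Phase} (h : M.Step t p q) :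
    M.Step (-t) (flipDir p) (flipDir q) := by
  rcases h with ⟨hi, rfl⟩ | ⟨j, hc, rfl⟩
  · refine Or.inl ⟨⟨hi.1, ?_⟩, ?_⟩
    · rw [flipDir_shift_back]; exact hi.2
    · rw [flipDir_shift_back]
  · refine Or.inr ⟨j, ⟨hc.1, ?_, ?_, ?_⟩, ?_⟩
    · rw [flipDir_shift_back]; exact hc.2.1
    · rw [flipDir_shift_back]; exact hc.2.2.1
    · rw [flipDir_shift_back, M.rp_flipDir]; exact hc.2.2.2
    · rw [flipDir_shift_back, M.rp_flipDir]

lemma flow_of_step {p q : Phase} {t : ℝ} (hp : M.Start p) (h : M.Step t p q) :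
    M.flow t p = q := by
  have hd : p.1 ∈ M.dom := by
    rcases h with ⟨hi, -⟩ | ⟨j, hc, -⟩
    exacts [hi.1, hc.1]
  rcases le_or_gt 0 t with ht | ht
  · rw [M.flow_of_nonneg hp ht]; exact M.fwd_of_step hp hd ht h
  · rw [M.flow_of_neg hp ht, M.rev_of_mem_dom hd]
    have hs := M.start_rev hp
    rw [M.rev_of_mem_dom hd] at hs
    have hq : q.1 ∈ M.dom := M.step_dom h
    rw [M.fwd_of_step (q := flipDir q) hs hd (neg_pos.2 ht).le (M.step_flipDir h),
      M.rev_of_mem_dom (p := flipDir q) hq, flipDir_flipDir]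

/-- The billiard flow as flow data of the table. -/
def flowData : FlowData M where
  Φ := M.flow
  zero := M.flow_zero
  group := M.flow_add
  pres := M.measurePreserving_flow
  lip p s t := by
    by_cases h : M.Start p
    · exact (M.isOrb_flow h).lip_pos s t
    · simp [M.flow_of_not_start h]
  step := by
    filter_upwards [M.ae_start] with p hp t q h
    exact M.flow_of_step hp h

end Table

variable {T : Triangle} {M : Table}

lemma TableOf.goodAt_of_isOrb (h : TableOf T M) {γ : ℝ → Phase} (hγ : M.IsOrb γ) (t : ℝ) :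
    T.GoodAt γ t := by
  obtain ⟨hreg, ⟨δ, hδ, hr⟩, ⟨δ', hδ', hl⟩⟩ := hγ t
  by_cases hz : ∃ j, M.ell j (γ t).1 = 0
  · obtain ⟨j, hj⟩ := hz
    obtain ⟨a, ha, hsa⟩ := M.exists_small_pos hreg
    obtain ⟨b, hb, hsb⟩ := M.exists_small_pre_pos hreg
    have hpre : M.pre (γ t) = M.rp j (γ t) := M.pre_of_ell hreg.2.2 hj
    have hfst : (M.pre (γ t)).1 = (γ t).1 := M.pre_fst _
    have hsnd : (M.pre (γ t)).2 = M.reflDir j (γ t).2 := by rw [hpre]; rfl
    refine Or.inr ⟨j, M.reflDir j (γ t).2, (γ t).2,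
      h.mem_side.2 ⟨hj, fun i hi => lt_of_le_of_ne (hreg.1 i) fun e =>
        hi (M.eq_of_ell_zero hreg.2.2 e.symm hj)⟩, ?_,
      min (min δ δ') (min a b), by positivity, fun s hs0 hs => ?_⟩
    · rw [h.2.2 j, ← M.vec_reflDir, M.reflDir_reflDir]
    · simp only [lt_min_iff] at hs
      refine ⟨⟨?_, ?_⟩, ?_, ?_⟩
      · rw [hl s ⟨hs0, hs.1.2⟩]
        refine Prod.ext ?_ hsnd
        simp [shift, hfst, hsnd, sub_eq_add_neg]
      · rw [hl s ⟨hs0, hs.1.2⟩, h.mem_dom]; exact hsb s ⟨hs0, hs.2.2⟩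
      · rw [hr s ⟨hs0.le, hs.1.1⟩]; rfl
      · rw [hr s ⟨hs0.le, hs.1.1⟩, h.mem_dom]; exact hsa s ⟨hs0, hs.2.1⟩
  · simp only [not_exists] at hz
    refine Or.inl ⟨h.mem_dom.2 fun i => lt_of_le_of_ne (hreg.1 i) (Ne.symm (hz i)),
      min δ δ', lt_min hδ hδ', fun s hs => ?_⟩
    rw [lt_min_iff] at hs
    rcases le_or_gt 0 s with h0 | h0
    · rw [hr s ⟨h0, by linarith [le_abs_self s, hs.1]⟩]; rfl
    · have := hl (-s) ⟨neg_pos.2 h0, by linarith [neg_le_abs s, hs.2]⟩
      rw [sub_neg_eq_add, neg_neg, M.pre_of_ne hz] at this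
      rw [this]; rfl

lemma TableOf.isBilliardFlow_flow (h : TableOf T M) : T.IsBilliardFlow M.flow := by
  refine ⟨{p | M.Start p} ∩ M.dom ×ˢ univ,
    M.measurableSet_start.inter (M.measurableSet_domain.prod MeasurableSet.univ), ?_, ?_⟩
  · have h0 : M.m0 ({p | M.Start p} ∩ M.dom ×ˢ univ)ᶜ = 0 := mem_ae_iff.1 <| by
      filter_upwards [M.ae_start, M.ae_mem_dom] with p h1 h2
      exact ⟨h1, h2, mem_univ _⟩
    rw [Triangle.μ, ← h.1, Measure.smul_apply]
    exact mul_eq_zero_of_right _ h0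
  · rintro p ⟨hp, hd, -⟩
    refine ⟨h.1 ▸ hd, M.flow_zero p, ?_, fun t => h.goodAt_of_isOrb (M.isOrb_flow hp) t⟩
    exact continuous_iff_continuousAt.2 fun r => Metric.continuousAt_iff.2 fun ε hε =>
      ⟨ε, hε, fun {x} hx => ((M.isOrb_flow hp).lip_pos x r).trans_lt (by
        rwa [Real.dist_eq] at hx)⟩

theorem flowStmt_holds : FlowStmt := fun _ M h =>
  ⟨M.flowData, h.isBilliardFlow_flow,
    fun Φ' hΦ' t => h.flow_unique M.flowData h.isBilliardFlow_flow Φ' hΦ' t,
    fun f hf hB => M.flowData.tendsto_sq_mean f hf hB⟩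

end Vale.Agent.P099
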