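import Vale.Agent.P099.Table

/-!
# P099: measure preservation of maps which are piecewise free motion and reflection
-/

noncomputable section

namespace Vale.Agent.P099

open MeasureTheory Set Complex Filter
open scoped ComplexConjugate

/-- Area times the uniform measure on all of phase space. -/
abbrev phaseVol : Measure Phase := (volume : Measure ℂ).prod unifDir

theorem continuous_vec : Continuous vec :=
  continuous_subtype_val.comp AddCircle.continuous_toCircle

theorem norm_vec (θ : Dir) : ‖vec θ‖ = 1 := Circle.norm_coe _

theorem vec_injective : Function.Injective vec :=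
  Subtype.val_injective.comp (AddCircle.injective_toCircle Real.two_pi_pos.ne')

theorem continuous_shift (t : ℝ) : Continuous (shift t) :=
  (continuous_fst.add (continuous_const.mul (continuous_vec.comp continuous_snd))).prodMk
    continuous_snd

theorem shift_zero (p : Phase) : shift 0 p = p := by simp [shift]

theorem shift_shift (s t : ℝ) (p : Phase) : shift s (shift t p) = shift (s + t) p := by
  simp [shift, add_mul]
  ring

/-- Free motion as a measurable equivalence. -/
def shiftE (t : ℝ) : Phase ≃ᵐ Phase where
  toFun := shift t
  invFun := shift (-t)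
  left_inv p := by rw [shift_shift, neg_add_cancel, shift_zero]
  right_inv p := by rw [shift_shift, add_neg_cancel, shift_zero]
  measurable_toFun := (continuous_shift t).measurable
  measurable_invFun := (continuous_shift (-t)).measurable

@[simp] theorem shiftE_apply (t : ℝ) (p : Phase) : shiftE t p = shift t p := rfl

theorem measurePreserving_shift (t : ℝ) : MeasurePreserving (shift t) phaseVol phaseVol := by
  have h1 : MeasurePreserving (fun q : Dir × ℂ => (q.1, q.2 + (t : ℂ) * vec q.1))
      (unifDir.prod volume) (unifDir.prod volume) := by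
    refine (MeasurePreserving.id unifDir).skew_product
      (g := fun θ x => x + (t : ℂ) * vec θ) ?_ (Eventually.of_forall fun θ => ?_)
    · exact (continuous_snd.add (continuous_const.mul (continuous_vec.comp continuous_fst))).measurable
    · exact (measurePreserving_add_right volume ((t : ℂ) * vec θ)).map_eq
  exact (Measure.measurePreserving_swap.comp h1).comp Measure.measurePreserving_swap

theorem measurePreserving_shiftE (t : ℝ) : MeasurePreserving (shiftE t) phaseVol phaseVol :=
  measurePreserving_shift t

namespace Table

variable (M : Table)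

theorem u_mul_conj (j : Fin 3) : M.u j * conj (M.u j) = 1 := by
  rw [Complex.mul_conj, Table.u, Complex.normSq_eq_norm_sq, Complex.norm_exp_ofReal_mul_I]
  simp

theorem continuous_ellFun (j : Fin 3) : Continuous (M.ell j) := by
  unfold Table.ell
  fun_prop

theorem continuous_refl (j : Fin 3) : Continuous (M.refl j) := by
  unfold Table.refl Table.ell
  fun_prop

theorem continuous_rp (j : Fin 3) : Continuous (M.rp j) := by
  unfold Table.rp Table.reflDir
  exact ((M.continuous_refl j).comp continuous_fst).prodMk
    ((continuous_sub_left _).comp continuous_snd)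

theorem isOpen_domain : IsOpen M.dom := by
  simp only [Table.dom, Set.ofPred_forall]
  exact isOpen_iInter_of_finite fun j => isOpen_lt continuous_const (M.continuous_ellFun j)

theorem measurableSet_domain : MeasurableSet M.dom := M.isOpen_domain.measurableSet

theorem refl_eq (j : Fin 3) (z : ℂ) :
    M.refl j z = M.u j * M.u j * conj z - ((2 * M.b j : ℝ) : ℂ) * (Complex.I * M.u j) := by
  have h := M.u_mul_conj j
  have e : (((conj (M.u j) * z).im : ℝ) : ℂ) * (2 * Complex.I) =
      conj (M.u j) * z - M.u j * conj z := by
    rw [show M.u j * conj z = conj (conj (M.u j) * z) by simp, Complex.sub_conj]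
    push_cast
    ring
  rw [Table.refl, Table.ell]
  push_cast
  linear_combination (-(M.u j)) * e - z * h

theorem rp_rp (j : Fin 3) (p : Phase) : M.rp j (M.rp j p) = p := by
  have h := M.u_mul_conj j
  refine Prod.ext ?_ ?_
  · show M.refl j (M.refl j p.1) = p.1
    simp only [refl_eq, map_sub, map_mul, Complex.conj_conj, Complex.conj_I, Complex.conj_ofReal]
    linear_combination (p.1 * (M.u j * conj (M.u j) + 1) +
      ((2 * M.b j : ℝ) : ℂ) * Complex.I * M.u j) * h
  · show M.reflDir j (M.reflDir j p.2) = p.2
    simp [Table.reflDir]

/-- The reflection in line `j` as a measurable equivalence. -/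
def rpE (j : Fin 3) : Phase ≃ᵐ Phase where
  toFun := M.rp j
  invFun := M.rp j
  left_inv := M.rp_rp j
  right_inv := M.rp_rp j
  measurable_toFun := (M.continuous_rp j).measurable
  measurable_invFun := (M.continuous_rp j).measurable

@[simp] theorem rpE_apply (j : Fin 3) (p : Phase) : M.rpE j p = M.rp j p := rfl

theorem measurePreserving_refl (j : Fin 3) : MeasurePreserving (M.refl j) volume volume := by
  set c : Circle := Circle.exp (2 * M.β j) with hc
  have h : M.refl j = fun z =>
      (Complex.conjLIE.trans (rotation c)) z + -(((2 * M.b j : ℝ) : ℂ) * (Complex.I * M.u j)) := by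
    funext z
    rw [refl_eq]
    simp only [LinearIsometryEquiv.trans_apply, Complex.conjLIE_apply, rotation_apply, hc,
      Circle.coe_exp, Table.u, ← Complex.exp_add]
    push_cast
    ring_nf
  rw [h]
  exact (measurePreserving_add_right volume _).comp
    (LinearIsometryEquiv.measurePreserving (Complex.conjLIE.trans (rotation c)))

theorem measurePreserving_rp (j : Fin 3) : MeasurePreserving (M.rp j) phaseVol phaseVol :=
  (M.measurePreserving_refl j).prod (Measure.measurePreserving_sub_left unifDir _)

theorem measurePreserving_rpE (j : Fin 3) : MeasurePreserving (M.rpE j) phaseVol phaseVol :=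
  M.measurePreserving_rp j

theorem m0_eq : M.m0 = phaseVol.restrict (M.dom ×ˢ univ) := by
  show (volume.restrict M.dom).prod unifDir = _
  conv_lhs => rw [← Measure.restrict_univ (μ := unifDir)]
  exact Measure.prod_restrict _ _

end Table

/-- A bijection of a full set of phase space which is piecewise a measure preserving
equivalence, and the identity outside, preserves the invariant measure. -/
theorem measurePreserving_of_pieces {ι : Type*} [Countable ι] (M : Table) (f : Phase → Phase)
    (Ω : Set Phase) (hΩ : MeasurableSet Ω) (hae : Ω =ᵐ[phaseVol] M.dom ×ˢ univ)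
    (P : ι → Set Phase) (g : ι → Phase ≃ᵐ Phase) (hP : ∀ i, MeasurableSet (P i))
    (hg : ∀ i, MeasurePreserving (g i) phaseVol phaseVol) (hcov : Ω ⊆ ⋃ i, P i)
    (heq : ∀ i, ∀ p ∈ P i ∩ Ω, f p = g i p) (hout : ∀ p ∉ Ω, f p = p)
    (hbij : Set.BijOn f Ω Ω) : MeasurePreserving f M.m0 M.m0 := by
  cases isEmpty_or_nonempty ι with
  | inl hι =>
    have hid : f = id := funext fun p => hout p fun hp => by simpa using hcov hp
    rw [hid]
    exact MeasurePreserving.id _
  | inr hι =>
    obtain ⟨e, he⟩ := exists_surjective_nat ι
    set Q : ℕ → Set Phase := disjointed (fun n => P (e n)) with hQ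
    set A : ℕ → Set Phase := fun n => Q n ∩ Ω with hA
    have hAP : ∀ n, A n ⊆ P (e n) ∩ Ω := fun n =>
      inter_subset_inter_left _ (disjointed_subset _ n)
    have hAeq : ∀ n, ∀ p ∈ A n, f p = g (e n) p := fun n p hp => heq _ p (hAP n hp)
    have hAm : ∀ n, MeasurableSet (A n) := fun n =>
      (MeasurableSet.disjointed (fun m => hP (e m)) n).inter hΩ
    have hcover : ⋃ n, A n = Ω := by
      rw [hA, ← iUnion_inter, hQ, iUnion_disjointed, inter_eq_right]
      intro p hp
      obtain ⟨i, hi⟩ := mem_iUnion.1 (hcov hp)
      obtain ⟨n, rfl⟩ := he i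
      exact mem_iUnion.2 ⟨n, hi⟩
    have hdisj : Pairwise fun m n => Disjoint (A m) (A n) := fun m n hmn =>
      Disjoint.mono inter_subset_left inter_subset_left (disjoint_disjointed _ hmn)
    have himg : ∀ n, g (e n) '' A n = f '' A n := fun n =>
      image_congr fun p hp => (hAeq n p hp).symm
    have hsplit : ∀ S : Set Phase, f ⁻¹' S ∩ Ω = ⋃ n, A n ∩ (g (e n)) ⁻¹' S := by
      intro S
      rw [← hcover, inter_iUnion]
      refine iUnion_congr fun n => ?_
      ext p
      simp only [mem_inter_iff, mem_preimage]
      constructor
      · exact fun ⟨h, hp⟩ => ⟨hp, by rwa [← hAeq n p hp]⟩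
      · exact fun ⟨hp, h⟩ => ⟨by rwa [hAeq n p hp], hp⟩
    have hmeas : Measurable f := by
      intro S hS
      have : f ⁻¹' S = (f ⁻¹' S ∩ Ω) ∪ (S ∩ Ωᶜ) := by
        ext p
        by_cases hp : p ∈ Ω
        · simp [hp]
        · simp [hp, hout p hp]
      rw [this, hsplit]
      exact (MeasurableSet.iUnion fun n => (hAm n).inter ((g (e n)).measurable hS)).union
        (hS.inter hΩ.compl)
    rw [M.m0_eq, ← Measure.restrict_congr_set hae]
    refine ⟨hmeas, Measure.ext fun S hS => ?_⟩
    rw [Measure.map_apply hmeas hS, Measure.restrict_apply (hmeas hS), Measure.restrict_apply hS,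
      hsplit, measure_iUnion (fun m n hmn => (hdisj hmn).mono inter_subset_left inter_subset_left)
        (fun n => (hAm n).inter ((g (e n)).measurable hS))]
    have hS' : S ∩ Ω = ⋃ n, g (e n) '' A n ∩ S := by
      conv_lhs => rw [← hbij.image_eq, ← hcover, image_iUnion, inter_iUnion]
      exact iUnion_congr fun n => by rw [himg, inter_comm]
    have hd' : Pairwise fun m n => Disjoint (g (e m) '' A m ∩ S) (g (e n) '' A n ∩ S) := by
      intro m n hmn
      refine Disjoint.mono inter_subset_left inter_subset_left ?_
      rw [himg, himg]
      exact (hdisj hmn).image hbij.injOn inter_subset_right inter_subset_right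
    rw [hS', measure_iUnion hd' fun n => ((g (e n)).measurableSet_image.2 (hAm n)).inter hS]
    refine tsum_congr fun n => ?_
    rw [← (hg (e n)).measure_preimage
      ((((g (e n)).measurableSet_image.2 (hAm n)).inter hS).nullMeasurableSet),
      preimage_inter, (g (e n)).preimage_image]

end Vale.Agent.P099
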