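import Vale.Agent.P099.Flow.Pres

/-!
# P099: strong continuity of a billiard flow in square mean
-/

noncomputable section

namespace Vale.Agent.P099

open MeasureTheory Set Complex Filter Topology
open scoped ENNReal BoundedContinuousFunction

theorem Table.volume_dom_finite (M : Table) : volume M.dom < ∞ :=
  M.bounded.measure_lt_top

theorem Table.isFiniteMeasure_m0 (M : Table) : IsFiniteMeasure M.m0 := by
  have : IsFiniteMeasure (volume.restrict M.dom) := ⟨by simpa using M.volume_dom_finite⟩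
  unfold Table.m0
  infer_instance

theorem Table.ae_mem_dom (M : Table) : ∀ᵐ p ∂M.m0, p.1 ∈ M.dom := by
  rw [M.m0_eq]
  filter_upwards [ae_restrict_mem (M.measurableSet_domain.prod MeasurableSet.univ)] with p hp
  exact hp.1

/-- Short times act as free motion at almost every point. -/
theorem FlowData.ae_tendsto {M : Table} (D : FlowData M) :
    ∀ᵐ p ∂M.m0, Tendsto (fun t => D.Φ t p) (𝓝 0) (𝓝 p) := by
  filter_upwards [M.ae_mem_dom, D.step] with p hp hstep
  have hc : Continuous fun t : ℝ => shift t p :=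
    ((continuous_const.add (Complex.continuous_ofReal.mul continuous_const)).prodMk continuous_const)
  have h0 : Tendsto (fun t : ℝ => shift t p) (𝓝 0) (𝓝 p) := by
    have h := hc.tendsto 0
    rwa [shift_zero] at h
  refine h0.congr' ?_
  have hmem : ∀ᶠ t in 𝓝 (0 : ℝ), (shift t p).1 ∈ M.dom :=
    (continuous_fst.comp hc).continuousAt.preimage_mem_nhds
      (M.isOpen_domain.mem_nhds (by simpa [shift_zero] using hp))
  filter_upwards [hmem] with t ht
  exact (hstep t _ (Or.inl ⟨⟨hp, ht⟩, rfl⟩)).symm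

/-- The flow moves bounded measurable functions continuously in square mean. -/
theorem FlowData.tendsto_sq_mean {M : Table} (D : FlowData M) (f : Phase → ℂ) (hf : Measurable f)
    (hB : ∃ B, ∀ p, ‖f p‖ ≤ B) :
    Tendsto (fun t => ∫ p, ‖f (D.Φ t p) - f p‖ ^ 2 ∂M.m0) (𝓝 0) (𝓝 0) := by
  have := M.isFiniteMeasure_m0
  obtain ⟨B, hB⟩ := hB
  refine Metric.tendsto_nhds.2 fun η hη => ?_
  have hmem : MemLp f (ENNReal.ofReal 2) M.m0 :=
    MemLp.of_bound hf.aestronglyMeasurable B (Eventually.of_forall hB)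
  obtain ⟨g, hg, -⟩ := hmem.exists_boundedContinuous_integral_rpow_sub_le two_pos
    (show (0 : ℝ) < η / 12 by positivity)
  simp only [Real.rpow_two] at hg
  have hint : ∀ φ : Phase → ℂ, Measurable φ → ∀ C : ℝ, (∀ p, ‖φ p‖ ≤ C) →
      Integrable (fun p => ‖φ p‖ ^ 2) M.m0 := fun φ hφ C hC =>
    (Integrable.of_bound hφ.norm.aestronglyMeasurable C
      (Eventually.of_forall fun p => by rw [norm_norm]; exact hC p)).bdd_mul
      hφ.norm.aestronglyMeasurable (Eventually.of_forall fun p => by rw [norm_norm]; exact hC p)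
      |>.congr (Eventually.of_forall fun p => by simp [sq])
  have hgm : Measurable (g : Phase → ℂ) := g.continuous.measurable
  have hgt : Tendsto (fun t => ∫ p, ‖g (D.Φ t p) - g p‖ ^ 2 ∂M.m0) (𝓝 0) (𝓝 0) := by
    have h := tendsto_integral_filter_of_dominated_convergence (μ := M.m0)
      (F := fun t p => ‖g (D.Φ t p) - g p‖ ^ 2) (f := fun _ => (0 : ℝ))
      (l := 𝓝 (0 : ℝ)) (fun _ => (2 * ‖g‖) ^ 2) ?_ ?_ (integrable_const _) ?_
    · simpa using h
    · exact Eventually.of_forall fun t =>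
        (((hgm.comp (D.pres t).measurable).sub hgm).norm.pow_const 2).aestronglyMeasurable
    · refine Eventually.of_forall fun t => Eventually.of_forall fun p => ?_
      rw [Real.norm_of_nonneg (sq_nonneg _)]
      refine pow_le_pow_left₀ (norm_nonneg _) ((norm_sub_le _ _).trans ?_) 2
      have h1 := g.norm_coe_le_norm (D.Φ t p)
      have h2 := g.norm_coe_le_norm p
      linarith
    · filter_upwards [D.ae_tendsto] with p hp
      have h := ((g.continuous.tendsto p).comp hp).sub_const (g p)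
      simpa using (h.norm.pow 2)
  filter_upwards [Metric.tendsto_nhds.1 hgt (η / 6) (by positivity)] with t ht
  rw [Real.dist_0_eq_abs, abs_of_nonneg (integral_nonneg fun p => sq_nonneg _)] at ht
  rw [Real.dist_0_eq_abs, abs_of_nonneg (integral_nonneg fun p => sq_nonneg _)]
  have hfm : Measurable fun p => f (D.Φ t p) := hf.comp (D.pres t).measurable
  have hgΦ : Measurable fun p => g (D.Φ t p) := hgm.comp (D.pres t).measurable
  have hd : Measurable fun p => f p - g p := hf.sub hgm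
  have hdB : ∀ p, ‖f p - g p‖ ≤ B + ‖g‖ := fun p =>
    (norm_sub_le _ _).trans (add_le_add (hB p) (g.norm_coe_le_norm p))
  have i1 : Integrable (fun p => ‖f (D.Φ t p) - g (D.Φ t p)‖ ^ 2) M.m0 :=
    hint _ (hfm.sub hgΦ) _ fun p => hdB (D.Φ t p)
  have i2 := hint (fun p => g (D.Φ t p) - g p) (hgΦ.sub hgm) (‖g‖ + ‖g‖) fun p =>
    (norm_sub_le _ _).trans (add_le_add (g.norm_coe_le_norm _) (g.norm_coe_le_norm _))
  have i3 := hint _ hd _ hdB
  have heq : ∫ p, ‖f (D.Φ t p) - g (D.Φ t p)‖ ^ 2 ∂M.m0 = ∫ p, ‖f p - g p‖ ^ 2 ∂M.m0 := by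
    conv_rhs => rw [← (D.pres t).map_eq]
    exact (integral_map (D.pres t).measurable.aemeasurable
      (hd.norm.pow_const 2).aestronglyMeasurable).symm
  calc ∫ p, ‖f (D.Φ t p) - f p‖ ^ 2 ∂M.m0
      ≤ ∫ p, 3 * (‖f (D.Φ t p) - g (D.Φ t p)‖ ^ 2 + ‖g (D.Φ t p) - g p‖ ^ 2 +
          ‖f p - g p‖ ^ 2) ∂M.m0 := by
        refine integral_mono_of_nonneg (Eventually.of_forall fun p => sq_nonneg _)
          (((i1.add i2).add i3).const_mul 3) (Eventually.of_forall fun p => ?_)
        set a := f (D.Φ t p) - g (D.Φ t p)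
        set b := g (D.Φ t p) - g p
        set c := f p - g p
        have e : f (D.Φ t p) - f p = a + b - c := by simp only [a, b, c]; ring
        have h : ‖f (D.Φ t p) - f p‖ ≤ ‖a‖ + ‖b‖ + ‖c‖ := by
          rw [e]
          exact (norm_sub_le _ _).trans (add_le_add (norm_add_le _ _) le_rfl)
        nlinarith [norm_nonneg (f (D.Φ t p) - f p), sq_nonneg (‖a‖ - ‖b‖), sq_nonneg (‖b‖ - ‖c‖),
          sq_nonneg (‖a‖ - ‖c‖)]
    _ = 3 * (∫ p, ‖f p - g p‖ ^ 2 ∂M.m0 + ∫ p, ‖g (D.Φ t p) - g p‖ ^ 2 ∂M.m0 +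
          ∫ p, ‖f p - g p‖ ^ 2 ∂M.m0) := by
        have i12 : Integrable (fun p => ‖f (D.Φ t p) - g (D.Φ t p)‖ ^ 2 +
            ‖g (D.Φ t p) - g p‖ ^ 2) M.m0 := i1.add i2
        rw [integral_const_mul, integral_add i12 i3, integral_add i1 i2, heq]
    _ < η := by linarith

end Vale.Agent.P099
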