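import Vale.Agent.P099.Flow.Geom

/-!
# P099: forward orbits of the billiard (no accumulation of collisions)
-/

noncomputable section

namespace Vale.Agent.P099

open MeasureTheory Set Complex Filter Topology
open scoped ComplexConjugate

lemma flipDir_injective : Function.Injective flipDir :=
  Function.LeftInverse.injective flipDir_flipDir

lemma continuous_flipDir : Continuous flipDir :=
  continuous_fst.prodMk (continuous_snd.add continuous_const)

lemma shift_injective (t : ℝ) : Function.Injective (shift t) := (shiftE t).injective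

namespace Table

variable (M : Table)

lemma rp_flipDir (j : Fin 3) (p : Phase) : M.rp j (flipDir p) = flipDir (M.rp j p) := by
  simp [rp, flipDir, reflDir_add_pi]

lemma rpw_flipDir (w : List (Fin 3)) (p : Phase) : M.rpw w (flipDir p) = flipDir (M.rpw w p) := by
  induction w with
  | nil => rfl
  | cons j w ih => simp [ih, rp_flipDir]

lemma rp_fst_of_ell (j : Fin 3) (p : Phase) (h : M.ell j p.1 = 0) : (M.rp j p).1 = p.1 :=
  M.refl_of_ell j p.1 h

/-! ### The incoming state -/

lemma pre_fst (p : Phase) : (M.pre p).1 = p.1 := by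
  unfold pre
  split_ifs with h0 h1 h2
  · exact M.rp_fst_of_ell 0 p h0
  · exact M.rp_fst_of_ell 1 p h1
  · exact M.rp_fst_of_ell 2 p h2
  · rfl

lemma eq_of_ell_zero {z : ℂ} (hc : ¬ M.Corner z) {i j : Fin 3} (hi : M.ell i z = 0)
    (hj : M.ell j z = 0) : i = j :=
  by_contra fun h => hc ⟨i, j, h, hi, hj⟩

lemma pre_of_ell {p : Phase} (hc : ¬ M.Corner p.1) {j : Fin 3} (hj : M.ell j p.1 = 0) :
    M.pre p = M.rp j p := by
  unfold pre
  split_ifs with h0 h1 h2
  · rw [M.eq_of_ell_zero hc hj h0]
  · rw [M.eq_of_ell_zero hc hj h1]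
  · rw [M.eq_of_ell_zero hc hj h2]
  · fin_cases j <;> simp_all

lemma pre_of_ne {p : Phase} (h : ∀ i, M.ell i p.1 ≠ 0) : M.pre p = p := by
  unfold pre; simp [h 0, h 1, h 2]

lemma pre_of_pos {p : Phase} (h : ∀ i, 0 < M.ell i p.1) : M.pre p = p :=
  M.pre_of_ne fun i => (h i).ne'

lemma exists_pre_eq_rpw (p : Phase) : ∃ w, M.pre p = M.rpw w p := by
  unfold pre
  split_ifs
  exacts [⟨[0], rfl⟩, ⟨[1], rfl⟩, ⟨[2], rfl⟩, ⟨[], rfl⟩]

lemma pre_pre {p : Phase} (hc : ¬ M.Corner p.1) : M.pre (M.pre p) = p := by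
  by_cases h : ∃ j, M.ell j p.1 = 0
  · obtain ⟨j, hj⟩ := h
    have hr := M.rp_fst_of_ell j p hj
    rw [M.pre_of_ell hc hj,
      M.pre_of_ell (p := M.rp j p) (j := j) (by rw [hr]; exact hc) (by rw [hr]; exact hj), rp_rp]
  · simp only [not_exists] at h
    rw [M.pre_of_ne h, M.pre_of_ne h]

lemma pre_flipDir (p : Phase) : M.pre (flipDir p) = flipDir (M.pre p) := by
  have h : (flipDir p).1 = p.1 := rfl
  unfold pre
  rw [h]
  split_ifs <;> simp [rp_flipDir]

lemma measurable_pre : Measurable M.pre := by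
  have hm : ∀ j, MeasurableSet {p : Phase | M.ell j p.1 = 0} := fun j =>
    (isClosed_eq ((M.continuous_ellFun j).comp continuous_fst) continuous_const).measurableSet
  exact (M.continuous_rp 0).measurable.ite (hm 0)
    ((M.continuous_rp 1).measurable.ite (hm 1)
      ((M.continuous_rp 2).measurable.ite (hm 2) measurable_id))

/-! ### Invariance of `Good` -/

lemma Good.not_corner {M : Table} {p : Phase} (h : M.Good p) : ¬ M.Corner p.1 := by
  simpa [shift_zero] using h [] 0

lemma Good.shift {M : Table} {p : Phase} (h : M.Good p) (s : ℝ) : M.Good (shift s p) := by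
  intro w t; rw [shift_shift]; exact h w _

lemma Good.rpw {M : Table} {p : Phase} (h : M.Good p) (v : List (Fin 3)) :
    M.Good (M.rpw v p) := by
  intro w t
  rw [← M.rpw_shift, ← M.rpw_append]; exact h _ _

lemma Good.flipDir {M : Table} {p : Phase} (h : M.Good p) : M.Good (flipDir p) := by
  intro w t hc
  have e : Vale.Agent.P099.shift t (Vale.Agent.P099.flipDir p) =
      Vale.Agent.P099.flipDir (Vale.Agent.P099.shift (-t) p) := by
    rw [flipDir_shift, neg_neg]
  rw [e, rpw_flipDir] at hc
  exact h w (-t) hc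

/-! ### The next collision -/

/-- A time later than every crossing of a line. -/
def big (p : Phase) : ℝ :=
  |M.ell 0 p.1 / M.rate 0 p.2| + |M.ell 1 p.1 / M.rate 1 p.2| + |M.ell 2 p.1 / M.rate 2 p.2| + 1

/-- The crossing time of line `j`. -/
def cand (j : Fin 3) (p : Phase) : ℝ :=
  if M.rate j p.2 < 0 then M.ell j p.1 / (-M.rate j p.2) else M.big p

/-- The time of the next collision. -/
def hit (p : Phase) : ℝ := min (min (M.cand 0 p) (M.cand 1 p)) (M.cand 2 p)

/-- The state just after the next collision. -/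
def next (p : Phase) : Phase := M.pre (shift (M.hit p) p)

lemma measurable_hit : Measurable M.hit := by
  have he : ∀ j, Measurable fun p : Phase => M.ell j p.1 := fun j =>
    ((M.continuous_ellFun j).comp continuous_fst).measurable
  have hr : ∀ j, Measurable fun p : Phase => M.rate j p.2 := fun j =>
    ((M.continuous_rate j).comp continuous_snd).measurable
  have hb : Measurable M.big := by
    unfold big
    exact ((((he 0).div (hr 0)).abs.add ((he 1).div (hr 1)).abs).add
      ((he 2).div (hr 2)).abs).add measurable_const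
  have hc : ∀ j, Measurable (M.cand j) := fun j =>
    ((he j).div (hr j).neg).ite (measurableSet_lt (hr j) measurable_const) hb
  exact ((hc 0).min (hc 1)).min (hc 2)

lemma continuous_shift2 : Continuous fun q : ℝ × Phase => shift q.1 q.2 :=
  ((continuous_fst.comp continuous_snd).add
    ((Complex.continuous_ofReal.comp continuous_fst).mul
      (continuous_vec.comp (continuous_snd.comp continuous_snd)))).prodMk
    (continuous_snd.comp continuous_snd)

lemma measurable_next : Measurable M.next :=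
  M.measurable_pre.comp (continuous_shift2.measurable.comp (M.measurable_hit.prodMk measurable_id))

lemma hit_le_cand (j : Fin 3) (p : Phase) : M.hit p ≤ M.cand j p := by
  fin_cases j
  · exact (min_le_left _ _).trans (min_le_left _ _)
  · exact (min_le_left _ _).trans (min_le_right _ _)
  · exact min_le_right _ _

lemma cand_lt_big {j : Fin 3} {p : Phase} (h : M.rate j p.2 < 0) : M.cand j p < M.big p := by
  rw [cand, if_pos h, div_neg]
  refine (neg_le_abs _).trans_lt ?_
  unfold big
  have h0 := abs_nonneg (M.ell 0 p.1 / M.rate 0 p.2)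
  have h1 := abs_nonneg (M.ell 1 p.1 / M.rate 1 p.2)
  have h2 := abs_nonneg (M.ell 2 p.1 / M.rate 2 p.2)
  fin_cases j <;> simp <;> linarith

lemma ell_shift_pos_of_rate {p : Phase} (hR : M.Reg p) {i : Fin 3} (hi : 0 ≤ M.rate i p.2)
    {s : ℝ} (hs : 0 < s) : 0 < M.ell i (shift s p).1 := by
  rw [M.ell_shift]
  rcases (hR.1 i).eq_or_lt with h | h
  · rw [← h, zero_add]; exact mul_pos hs (hR.2.1 i h.symm)
  · positivity

lemma exists_rate_neg {p : Phase} (hR : M.Reg p) : ∃ j, M.rate j p.2 < 0 := by
  by_contra h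
  simp only [not_exists, not_lt] at h
  obtain ⟨C, hC⟩ := M.bounded.exists_norm_le
  have hC' : ∀ z ∈ M.dom, ‖z‖ ≤ C := hC
  have hs : (0:ℝ) < |C| + ‖p.1‖ + 1 := by positivity
  have hmem : (shift (|C| + ‖p.1‖ + 1) p).1 ∈ M.dom := fun i =>
    M.ell_shift_pos_of_rate hR (h i) hs
  have h1 := hC' _ hmem
  have h2 : ‖((|C| + ‖p.1‖ + 1 : ℝ) : ℂ) * vec p.2‖ ≤
      ‖(shift (|C| + ‖p.1‖ + 1) p).1‖ + ‖p.1‖ := by
    calc _ = ‖(shift (|C| + ‖p.1‖ + 1) p).1 - p.1‖ := by simp [shift]
      _ ≤ _ := norm_sub_le _ _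
  rw [norm_mul, norm_vec, mul_one, Complex.norm_real, Real.norm_eq_abs, abs_of_pos hs] at h2
  linarith [le_abs_self C]

lemma hit_spec {p : Phase} (hR : M.Reg p) :
    0 < M.hit p ∧ (∀ s ∈ Ioo 0 (M.hit p), ∀ i, 0 < M.ell i (shift s p).1) ∧
      (∀ i, 0 ≤ M.ell i (shift (M.hit p) p).1) ∧
      ∃ j, M.ell j (shift (M.hit p) p).1 = 0 ∧ M.rate j p.2 < 0 := by
  obtain ⟨j0, hj0⟩ := M.exists_rate_neg hR
  have hmem : ∃ j, M.hit p = M.cand j p := by
    unfold hit
    rcases min_choice (min (M.cand 0 p) (M.cand 1 p)) (M.cand 2 p) with h | h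
    · rcases min_choice (M.cand 0 p) (M.cand 1 p) with h' | h'
      · exact ⟨0, by rw [h, h']⟩
      · exact ⟨1, by rw [h, h']⟩
    · exact ⟨2, h⟩
  obtain ⟨j, hj⟩ := hmem
  have hjn : M.rate j p.2 < 0 := by
    by_contra hn
    have h1 := M.hit_le_cand j0 p
    have h2 := M.cand_lt_big hj0
    rw [hj, cand, if_neg hn] at h1
    linarith
  have hjpos : 0 < M.ell j p.1 := by
    rcases (hR.1 j).eq_or_lt with h | h
    · exact absurd (hR.2.1 j h.symm) (not_lt.2 hjn.le)
    · exact h
  have hval : M.hit p = M.ell j p.1 / (-M.rate j p.2) := by rw [hj, cand, if_pos hjn]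
  have hpos : 0 < M.hit p := by rw [hval]; exact div_pos hjpos (neg_pos.2 hjn)
  have hle : ∀ i, M.rate i p.2 < 0 → M.hit p * (-M.rate i p.2) ≤ M.ell i p.1 := by
    intro i hi
    have h1 := M.hit_le_cand i p
    rw [cand, if_pos hi, le_div_iff₀ (neg_pos.2 hi)] at h1
    exact h1
  refine ⟨hpos, ?_, ?_, j, ?_, hjn⟩
  · intro s hs i
    by_cases hi : M.rate i p.2 < 0
    · rw [M.ell_shift]
      nlinarith [hle i hi, hs.2, mul_pos (sub_pos.2 hs.2) (neg_pos.2 hi)]
    · exact M.ell_shift_pos_of_rate hR (not_lt.1 hi) hs.1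
  · intro i
    by_cases hi : M.rate i p.2 < 0
    · rw [M.ell_shift]; linarith [hle i hi]
    · exact (M.ell_shift_pos_of_rate hR (not_lt.1 hi) hpos).le
  · rw [M.ell_shift, hval]
    field_simp [hjn.ne]
    ring

lemma start_next {p : Phase} (h : M.Start p) :
    M.Start (M.next p) ∧ ∃ j, M.next p = M.rp j (shift (M.hit p) p) ∧
      M.ell j (M.next p).1 = 0 ∧ M.rate j p.2 < 0 ∧ 0 < M.rate j (M.next p).2 := by
  obtain ⟨_, _, hnn, j, hj, hjn⟩ := M.hit_spec h.1
  have hG := h.2.shift (M.hit p)
  have hc := hG.not_corner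
  have he : M.next p = M.rp j (shift (M.hit p) p) := M.pre_of_ell hc hj
  have hx : (M.next p).1 = (shift (M.hit p) p).1 := by rw [he]; exact M.rp_fst_of_ell j _ hj
  have hr : 0 < M.rate j (M.next p).2 := by
    rw [he]; change 0 < M.rate j (M.reflDir j p.2)
    rw [M.rate_reflDir]; linarith
  refine ⟨⟨⟨fun i => by rw [hx]; exact hnn i, ?_, by rw [hx]; exact hc⟩, ?_⟩,
    j, he, by rw [hx]; exact hj, hjn, hr⟩
  · intro i hi
    rw [hx] at hi
    rw [M.eq_of_ell_zero hc hi hj]; exact hr
  · rw [he]; exact hG.rpw [j]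

/-- The state after `n` collisions. -/
def col : ℕ → Phase → Phase
  | 0, p => p
  | n + 1, p => M.next (col n p)

/-- The time of the `n`-th collision. -/
def colTime : ℕ → Phase → ℝ
  | 0, _ => 0
  | n + 1, p => colTime n p + M.hit (M.col n p)

lemma measurable_col : ∀ n, Measurable (M.col n)
  | 0 => measurable_id
  | n + 1 => M.measurable_next.comp (measurable_col n)

lemma measurable_colTime : ∀ n, Measurable (M.colTime n)
  | 0 => measurable_const
  | n + 1 => (measurable_colTime n).add (M.measurable_hit.comp (M.measurable_col n))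

lemma start_col {p : Phase} (h : M.Start p) : ∀ n, M.Start (M.col n p)
  | 0 => h
  | n + 1 => (M.start_next (start_col h n)).1

lemma colTime_strictMono {p : Phase} (h : M.Start p) : StrictMono fun n => M.colTime n p :=
  strictMono_nat_of_lt_succ fun n => lt_add_of_pos_right _ (M.hit_spec (M.start_col h n).1).1

lemma exists_col_eq_rpw {p : Phase} (h : M.Start p) (n : ℕ) :
    ∃ w, M.col n p = M.rpw w (shift (M.colTime n p) p) := by
  induction n with
  | zero => exact ⟨[], by simp [col, colTime, shift_zero]⟩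
  | succ n ih =>
    obtain ⟨w, hw⟩ := ih
    obtain ⟨j, hj, -⟩ := (M.start_next (M.start_col h n)).2
    refine ⟨j :: w, ?_⟩
    rw [col, hj, colTime]
    conv_lhs => rw [hw, ← M.rpw_shift, shift_shift]
    rw [rpw_cons, add_comm]
    congr 2
    rw [← hw]

lemma dist_refl_pts (j : Fin 3) (z w : ℂ) : dist (M.refl j z) (M.refl j w) = dist z w := by
  rw [refl_eq, refl_eq, dist_sub_right, dist_eq_norm, dist_eq_norm, ← mul_sub, ← map_sub]
  exact M.rlin_norm j (z - w)

lemma dist_rpw_fst {V : ℂ} (w : List (Fin 3)) (hw : ∀ j ∈ w, M.ell j V = 0) (p : Phase) :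
    dist (M.rpw w p).1 V = dist p.1 V := by
  induction w with
  | nil => rfl
  | cons j w ih =>
    have h1 : M.refl j V = V := M.refl_of_ell j V (hw j List.mem_cons_self)
    rw [rpw_cons]
    change dist (M.refl j (M.rpw w p).1) V = _
    conv_lhs => rw [← h1]
    rw [dist_refl_pts, ih fun i hi => hw i (List.mem_cons_of_mem j hi)]

/-- Collisions do not accumulate. -/
lemma exists_lt_colTime {p : Phase} (h : M.Start p) (t : ℝ) : ∃ n, t < M.colTime (n + 1) p := by
  by_contra hcon
  simp only [not_exists, not_lt] at hcon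
  choose j hj using fun n => (M.start_next (M.start_col h n)).2
  set τ : ℕ → ℝ := fun n => M.colTime n p with hτ
  have hmono : Monotone τ := (M.colTime_strictMono h).monotone
  have hbdd : BddAbove (range τ) := ⟨t, by
    rintro _ ⟨n, rfl⟩; exact (hmono n.le_succ).trans (hcon n)⟩
  have hτT := tendsto_atTop_ciSup hmono hbdd
  set T := ⨆ n, τ n
  set x : ℕ → ℂ := fun n => (M.col n p).1 with hx
  have hstep : ∀ n, dist (x n) (x (n + 1)) ≤ τ (n + 1) - τ n := by
    intro n
    have hd : x (n + 1) = (M.col n p).1 + ((M.hit (M.col n p) : ℝ) : ℂ) * vec (M.col n p).2 := by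
      simp only [hx, col, next, pre_fst]; rfl
    rw [hd, dist_self_add_right, norm_mul, norm_vec, mul_one, Complex.norm_real, Real.norm_eq_abs,
      abs_of_pos (M.hit_spec (M.start_col h n).1).1]
    simp [hτ, colTime]
  have hcauchy : CauchySeq x := by
    refine cauchySeq_of_dist_le_of_summable _ hstep ?_
    refine summable_of_sum_range_le (c := t - τ 0)
      (fun n => sub_nonneg.2 (hmono n.le_succ)) fun n => ?_
    rw [Finset.sum_range_sub τ n]
    linarith [(hmono n.le_succ).trans (hcon n)]
  obtain ⟨P, hP⟩ := cauchySeq_tendsto_of_complete hcauchy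
  have hev : ∀ᶠ n in atTop, M.ell (j n) P = 0 := by
    have : ∀ᶠ n in atTop, ∀ i, M.ell i P ≠ 0 → M.ell i (x (n + 1)) ≠ 0 := by
      refine eventually_all.2 fun i => ?_
      by_cases hi : M.ell i P = 0
      · exact Eventually.of_forall fun n h' => absurd hi h'
      · filter_upwards [(((M.continuous_ellFun i).tendsto P).comp
          (hP.comp (tendsto_add_atTop_nat 1))).eventually_ne hi] with n hn _ using hn
    filter_upwards [this] with n hn
    by_contra hne
    exact hn (j n) hne (hj n).2.1
  obtain ⟨N, hN⟩ := eventually_atTop.1 hev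
  have hne : j (N + 1) ≠ j N := by
    intro he
    have h1 := (hj (N + 1)).2.2.1
    rw [he] at h1
    have h2 := (hj N).2.2.2
    change 0 < M.rate (j N) (M.col (N + 1) p).2 at h2
    linarith
  have hcorner : M.Corner P :=
    ⟨_, _, hne, hN _ N.le_succ, hN _ le_rfl⟩
  have hword : ∀ k, ∃ w, (∀ i ∈ w, M.ell i P = 0) ∧
      M.col (N + k) p = M.rpw w (shift (τ (N + k) - τ N) (M.col N p)) := by
    intro k
    induction k with
    | zero => exact ⟨[], by simp, by simp [shift_zero]⟩
    | succ k ih =>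
      obtain ⟨w, hw, he⟩ := ih
      refine ⟨j (N + k) :: w, ?_, ?_⟩
      · intro i hi
        rcases List.mem_cons.1 hi with rfl | hi
        · exact hN _ (Nat.le_add_right N k)
        · exact hw i hi
      · rw [← Nat.add_assoc, col, (hj (N + k)).1, rpw_cons]
        congr 1
        conv_lhs => rw [he, ← M.rpw_shift, shift_shift]
        congr 2
        simp [hτ, colTime]; rw [← he]; ring
  have hdist : ∀ k, dist (shift (τ (N + k) - τ N) (M.col N p)).1 P = dist (x (N + k)) P := by
    intro k
    obtain ⟨w, hw, he⟩ := hword k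
    simp only [hx]
    rw [he, M.dist_rpw_fst w hw]
  have hlim : Tendsto (fun k => (shift (τ (N + k) - τ N) (M.col N p)).1) atTop
      (𝓝 (shift (T - τ N) (M.col N p)).1) := by
    have h1 : Tendsto (fun k => τ (N + k) - τ N) atTop (𝓝 (T - τ N)) :=
      ((hτT.comp (tendsto_atTop_mono (fun k => Nat.le_add_left k N) tendsto_id))).sub_const _
    exact ((continuous_fst.comp (continuous_shift2.comp
      (continuous_id.prodMk continuous_const))).tendsto _).comp h1
  have hlim' : Tendsto (fun k => dist (shift (τ (N + k) - τ N) (M.col N p)).1 P) atTop (𝓝 0) := by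
    simp only [hdist]
    exact tendsto_iff_dist_tendsto_zero.1
      (hP.comp (tendsto_atTop_mono (fun k => Nat.le_add_left k N) tendsto_id))
  have hPe := tendsto_nhds_unique hlim (tendsto_iff_dist_tendsto_zero.2 hlim')
  exact ((M.start_col h N).2.shift (T - τ N)).not_corner (hPe.symm ▸ hcorner)

/-- The number of collisions up to time `t`. -/
def colIdx (t : ℝ) (p : Phase) : ℕ := sInf {n | t < M.colTime (n + 1) p}

/-- The forward orbit. -/
def fwd (t : ℝ) (p : Phase) : Phase :=
  shift (t - M.colTime (M.colIdx t p) p) (M.col (M.colIdx t p) p)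

lemma colIdx_eq {p : Phase} (h : M.Start p) {t : ℝ} {n : ℕ}
    (h1 : M.colTime n p ≤ t) (h2 : t < M.colTime (n + 1) p) : M.colIdx t p = n := by
  refine le_antisymm (Nat.sInf_le h2) (le_csInf ⟨n, h2⟩ fun m hm => ?_)
  by_contra hlt
  have := (M.colTime_strictMono h).monotone (Nat.succ_le_of_lt (not_le.1 hlt))
  simp only [mem_ofPred_eq] at hm
  simp only [Nat.succ_eq_add_one] at this
  linarith

lemma exists_interval {p : Phase} (h : M.Start p) {t : ℝ} (ht : 0 ≤ t) :
    ∃ n, M.colTime n p ≤ t ∧ t < M.colTime (n + 1) p := by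
  classical
  have he := M.exists_lt_colTime h t
  refine ⟨Nat.find he, ?_, Nat.find_spec he⟩
  rcases Nat.eq_zero_or_pos (Nat.find he) with h0 | h0
  · rw [h0]; exact ht
  · obtain ⟨m, hm⟩ := Nat.exists_eq_succ_of_ne_zero h0.ne'
    have := Nat.find_min he (show m < Nat.find he by omega)
    rw [hm]; exact not_lt.1 this

lemma fwd_eq {p : Phase} (h : M.Start p) {t : ℝ} {n : ℕ}
    (h1 : M.colTime n p ≤ t) (h2 : t < M.colTime (n + 1) p) :
    M.fwd t p = shift (t - M.colTime n p) (M.col n p) := by
  rw [fwd, M.colIdx_eq h h1 h2]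

lemma measurable_colIdx (t : ℝ) : Measurable (M.colIdx t) := by
  classical
  have hm : ∀ n, MeasurableSet {p : Phase | t < M.colTime (n + 1) p} := fun n =>
    measurableSet_lt measurable_const (M.measurable_colTime _)
  refine measurable_to_countable' fun n => ?_
  rcases n with _ | n
  · have : M.colIdx t ⁻¹' {0} = {p | t < M.colTime 1 p} ∪ ⋂ n, {p | t < M.colTime (n + 1) p}ᶜ := by
      ext p
      simp [colIdx, Nat.sInf_eq_zero, eq_empty_iff_forall_notMem]
    rw [this]
    exact (hm 0).union (MeasurableSet.iInter fun n => (hm n).compl)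
  · have : M.colIdx t ⁻¹' {n + 1} = {p | t < M.colTime (n + 1 + 1) p} ∩
        ⋂ m, ⋂ (_ : m ≤ n), {p | t < M.colTime (m + 1) p}ᶜ := by
      ext p
      simp only [mem_preimage, mem_singleton_iff, mem_inter_iff, mem_ofPred_eq, mem_iInter,
        mem_compl_iff, colIdx]
      constructor
      · intro he
        refine ⟨?_, fun m hm' hlt => ?_⟩
        · have hne : {k | t < M.colTime (k + 1) p}.Nonempty :=
            Nat.nonempty_of_sInf_eq_succ he
          simpa [he] using Nat.sInf_mem hne
        · have := Nat.sInf_le (s := {k | t < M.colTime (k + 1) p}) hlt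
          omega
      · rintro ⟨h1, h2⟩
        refine le_antisymm (Nat.sInf_le h1) (le_csInf ⟨_, h1⟩ fun m hm' => ?_)
        by_contra hlt
        exact h2 m (by omega) hm'
    rw [this]
    exact (hm _).inter (MeasurableSet.iInter fun m => MeasurableSet.iInter fun _ => (hm m).compl)

lemma measurable_fwd (t : ℝ) : Measurable (M.fwd t) := by
  have : Measurable fun q : ℕ × Phase => shift (t - M.colTime q.1 q.2) (M.col q.1 q.2) :=
    measurable_from_prod_countable_right fun n =>
      continuous_shift2.measurable.comp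
        ((measurable_const.sub (M.measurable_colTime n)).prodMk (M.measurable_col n))
  exact this.comp ((M.measurable_colIdx t).prodMk measurable_id)

lemma fwd_zero {p : Phase} (h : M.Start p) : M.fwd 0 p = p := by
  rw [M.fwd_eq h (t := 0) (n := 0) (by simp [colTime])
    (by simpa [colTime, col] using (M.hit_spec h.1).1)]
  simp [colTime, col, shift_zero]

lemma fwd_reg {p : Phase} (h : M.Start p) {t : ℝ} (ht : 0 ≤ t) : M.Reg (M.fwd t p) := by
  obtain ⟨n, h1, h2⟩ := M.exists_interval h ht
  rw [M.fwd_eq h h1 h2]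
  have hs := M.start_col h n
  rcases h1.eq_or_lt with e | e
  · rw [e, sub_self, shift_zero]; exact hs.1
  · have hp := (M.hit_spec hs.1).2.1 (t - M.colTime n p)
      ⟨sub_pos.2 e, by rw [colTime] at h2; linarith⟩
    exact ⟨fun i => (hp i).le, fun i hi => absurd hi (hp i).ne', (hs.2.shift _).not_corner⟩

lemma exists_fwd_eq_rpw {p : Phase} (h : M.Start p) {t : ℝ} (ht : 0 ≤ t) :
    ∃ w, M.fwd t p = M.rpw w (shift t p) := by
  obtain ⟨n, h1, h2⟩ := M.exists_interval h ht
  obtain ⟨w, hw⟩ := M.exists_col_eq_rpw h n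
  exact ⟨w, by rw [M.fwd_eq h h1 h2, hw, ← M.rpw_shift, shift_shift, sub_add_cancel]⟩

lemma fwd_right {p : Phase} (h : M.Start p) {t : ℝ} (ht : 0 ≤ t) :
    ∃ δ > 0, ∀ s ∈ Ico 0 δ, M.fwd (t + s) p = shift s (M.fwd t p) := by
  obtain ⟨n, h1, h2⟩ := M.exists_interval h ht
  refine ⟨M.colTime (n + 1) p - t, sub_pos.2 h2, fun s hs => ?_⟩
  rw [M.fwd_eq h h1 h2, M.fwd_eq h (h1.trans (le_add_of_nonneg_right hs.1)) (by linarith [hs.2]),
    shift_shift]
  congr 1
  ring

lemma fwd_left {p : Phase} (h : M.Start p) {t : ℝ} (ht : 0 < t) :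
    ∃ δ > 0, ∀ s ∈ Ioo 0 δ, M.fwd (t - s) p = shift (-s) (M.pre (M.fwd t p)) := by
  obtain ⟨n, h1, h2⟩ := M.exists_interval h ht.le
  rw [M.fwd_eq h h1 h2]
  rcases h1.eq_or_lt with e | e
  · rcases n with _ | m
    · exact absurd e ht.ne
    · have hs := M.start_col h m
      have hspec := M.hit_spec hs.1
      refine ⟨M.hit (M.col m p), hspec.1, fun s hs' => ?_⟩
      have ha : M.colTime m p ≤ t - s := by rw [colTime] at e; linarith [hs'.2]
      have hb : t - s < M.colTime (m + 1) p := by linarith [hs'.1]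
      rw [M.fwd_eq h ha hb, ← e, sub_self, shift_zero, col, next,
        M.pre_pre (hs.2.shift _).not_corner, shift_shift, colTime]
      congr 1
      ring
  · refine ⟨t - M.colTime n p, sub_pos.2 e, fun s hs => ?_⟩
    have hp := (M.hit_spec (M.start_col h n).1).2.1 (t - M.colTime n p)
      ⟨sub_pos.2 e, by rw [colTime] at h2; linarith⟩
    rw [M.fwd_eq h (by linarith [hs.2]) (by linarith [hs.1] : t - s < M.colTime (n + 1) p),
      M.pre_of_pos hp, shift_shift]
    congr 1
    ring

end Table

end Vale.Agent.P099
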