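import Vale.Agent.P099.Spec
import Vale.Agent.P099.Flow.Pres

/-!
# P099: elementary geometry of orbits (free motion, reflections, regular states)
-/

noncomputable section

namespace Vale.Agent.P099

open MeasureTheory Set Complex Filter Topology
open scoped ComplexConjugate

lemma vec_coe (x : ℝ) : vec (x : Dir) = Complex.exp (x * Complex.I) := by
  simp [vec, AddCircle.toCircle_apply_mk, Circle.coe_exp]

lemma vec_add (a b : Dir) : vec (a + b) = vec a * vec b := by
  simp [vec, AddCircle.toCircle_add]

lemma vec_add_pi (θ : Dir) : vec (θ + (Real.pi : Dir)) = - vec θ := by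
  rw [vec_add, vec_coe, Complex.exp_pi_mul_I]; ring

lemma pi_add_pi : ((Real.pi : Dir) + (Real.pi : Dir)) = 0 := by
  rw [← AddCircle.coe_add, ← two_mul]; exact AddCircle.coe_period _

/-- Reversal of the direction. -/
def flipDir (p : Phase) : Phase := (p.1, p.2 + (Real.pi : Dir))

lemma flipDir_flipDir (p : Phase) : flipDir (flipDir p) = p := by
  simp [flipDir, add_assoc, pi_add_pi]

lemma flipDir_shift (t : ℝ) (p : Phase) : flipDir (shift t p) = shift (-t) (flipDir p) := by
  simp only [flipDir, shift, Prod.mk.injEq, and_true, vec_add_pi]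
  push_cast; ring

namespace Table

variable (M : Table)

lemma conj_mul_u (j : Fin 3) : conj (M.u j) * M.u j = 1 := by rw [mul_comm, M.u_mul_conj]

/-- The speed at which a direction moves away from line `j`. -/
def rate (j : Fin 3) (θ : Dir) : ℝ := (conj (M.u j) * vec θ).im

lemma ell_shift (j : Fin 3) (t : ℝ) (p : Phase) :
    M.ell j (shift t p).1 = M.ell j p.1 + t * M.rate j p.2 := by
  simp only [ell, rate, shift]
  rw [mul_add, mul_left_comm, Complex.add_im, Complex.im_ofReal_mul]
  ring

lemma vec_reflDir (j : Fin 3) (θ : Dir) : vec (M.reflDir j θ) = M.rlin j (vec θ) := by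
  induction θ using QuotientAddGroup.induction_on with
  | H x =>
    change vec (((2 * M.β j : ℝ) : Dir) - (x : Dir)) = _
    rw [← AddCircle.coe_sub, vec_coe]
    change _ = M.u j * M.u j * conj (vec (x : Dir))
    rw [vec_coe, u, ← Complex.exp_conj, ← Complex.exp_add, ← Complex.exp_add]
    congr 1
    simp; ring

lemma reflDir_reflDir (j : Fin 3) (θ : Dir) : M.reflDir j (M.reflDir j θ) = θ := by
  simp [reflDir]

lemma reflDir_add_pi (j : Fin 3) (θ : Dir) :
    M.reflDir j (θ + (Real.pi : Dir)) = M.reflDir j θ + (Real.pi : Dir) := by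
  have h : -(Real.pi : Dir) = (Real.pi : Dir) := neg_eq_of_add_eq_zero_left pi_add_pi
  simp only [reflDir]
  rw [sub_add_eq_sub_sub, sub_eq_add_neg, h]

lemma rate_reflDir (j : Fin 3) (θ : Dir) : M.rate j (M.reflDir j θ) = - M.rate j θ := by
  have e : conj (M.u j) * (M.u j * M.u j * conj (vec θ)) = conj (conj (M.u j) * vec θ) := by
    rw [map_mul, Complex.conj_conj, ← mul_assoc, ← mul_assoc, M.conj_mul_u, one_mul]
  rw [rate, rate, vec_reflDir, rlin, e, Complex.conj_im]

lemma rate_add_pi (j : Fin 3) (θ : Dir) : M.rate j (θ + (Real.pi : Dir)) = - M.rate j θ := by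
  simp [rate, vec_add_pi]

lemma ell_refl (j : Fin 3) (z : ℂ) : M.ell j (M.refl j z) = - M.ell j z := by
  have e : conj (M.u j) * (((2 * M.ell j z : ℝ) : ℂ) * (Complex.I * M.u j)) =
      ((2 * M.ell j z : ℝ) : ℂ) * Complex.I := by
    linear_combination (((2 * M.ell j z : ℝ) : ℂ) * Complex.I) * M.conj_mul_u j
  simp only [ell, refl, mul_sub, Complex.sub_im] at e ⊢
  rw [e]; simp; ring

lemma refl_refl (j : Fin 3) (z : ℂ) : M.refl j (M.refl j z) = z := by
  conv_lhs => rw [refl, ell_refl]
  simp [refl]

lemma refl_of_ell (j : Fin 3) (z : ℂ) (h : M.ell j z = 0) : M.refl j z = z := by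
  simp [refl, h]

lemma rp_shift (j : Fin 3) (t : ℝ) (p : Phase) :
    M.rp j (shift t p) = shift t (M.rp j p) := by
  refine Prod.ext ?_ rfl
  change M.refl j (shift t p).1 = M.refl j p.1 + (t : ℂ) * vec (M.reflDir j p.2)
  rw [refl, refl, M.ell_shift, vec_reflDir, rlin]
  simp only [shift, rate]
  have hv : (conj (M.u j) * vec p.2 - conj (conj (M.u j) * vec p.2)) =
      (((conj (M.u j) * vec p.2).im * 2 : ℝ) : ℂ) * Complex.I := by
    rw [Complex.sub_conj]; push_cast; ring
  rw [map_mul, Complex.conj_conj] at hv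
  push_cast at hv ⊢
  linear_combination ((t : ℂ) * M.u j) * hv - ((t : ℂ) * vec p.2) * M.conj_mul_u j

lemma continuous_rate (j : Fin 3) : Continuous (M.rate j) :=
  Complex.continuous_im.comp (continuous_const.mul continuous_vec)

lemma rlin_norm (j : Fin 3) (z : ℂ) : ‖M.rlin j z‖ = ‖z‖ := by
  simp [rlin, u, Complex.norm_exp]

/-- A word of reflections. -/
def rpw (w : List (Fin 3)) (p : Phase) : Phase := w.foldr M.rp p

@[simp] lemma rpw_nil (p : Phase) : M.rpw [] p = p := rfl

@[simp] lemma rpw_cons (j : Fin 3) (w : List (Fin 3)) (p : Phase) :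
    M.rpw (j :: w) p = M.rp j (M.rpw w p) := rfl

lemma rpw_append (v w : List (Fin 3)) (p : Phase) : M.rpw (v ++ w) p = M.rpw v (M.rpw w p) := by
  simp [rpw, List.foldr_append]

lemma rpw_reverse (w : List (Fin 3)) (p : Phase) : M.rpw w.reverse (M.rpw w p) = p := by
  induction w generalizing p with
  | nil => rfl
  | cons j w ih => simp [List.reverse_cons, rpw_append, rp_rp, ih]

lemma rpw_shift (w : List (Fin 3)) (t : ℝ) (p : Phase) :
    M.rpw w (shift t p) = shift t (M.rpw w p) := by
  induction w with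
  | nil => rfl
  | cons j w ih => simp [ih, rp_shift]

lemma continuous_rpw (w : List (Fin 3)) : Continuous (M.rpw w) := by
  induction w with
  | nil => exact continuous_id
  | cons j w ih => exact (M.continuous_rp j).comp ih

/-- The intersection point of two lines. -/
def Corner (z : ℂ) : Prop := ∃ i j, i ≠ j ∧ M.ell i z = 0 ∧ M.ell j z = 0

/-- The unfolded line never meets an image of a vertex. -/
def Good (p : Phase) : Prop := ∀ (w : List (Fin 3)) (t : ℝ), ¬ M.Corner (M.rpw w (shift t p)).1

/-- A state in the closed table, off the vertices, pointing inwards. -/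
def Reg (p : Phase) : Prop :=
  (∀ i, 0 ≤ M.ell i p.1) ∧ (∀ i, M.ell i p.1 = 0 → 0 < M.rate i p.2) ∧ ¬ M.Corner p.1

/-- States with a complete orbit. -/
def Start (p : Phase) : Prop := M.Reg p ∧ M.Good p

/-- On a side: the direction before the collision. -/
def pre (p : Phase) : Phase :=
  if M.ell 0 p.1 = 0 then M.rp 0 p else if M.ell 1 p.1 = 0 then M.rp 1 p
    else if M.ell 2 p.1 = 0 then M.rp 2 p else p

/-- Orbits: free motion to the right, reflection at the sides (post-collision convention). -/
def IsOrb (γ : ℝ → Phase) : Prop :=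
  ∀ t, M.Reg (γ t) ∧ (∃ δ > 0, ∀ s ∈ Ico 0 δ, γ (t + s) = shift s (γ t)) ∧
    ∃ δ > 0, ∀ s ∈ Ioo 0 δ, γ (t - s) = shift (-s) (M.pre (γ t))

end Table

end Vale.Agent.P099
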