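import Vale.Agent.P099.Flow.Forward

/-!
# P099: complete orbits and the group law
-/

noncomputable section

namespace Vale.Agent.P099

open MeasureTheory Set Complex Filter Topology
open scoped ComplexConjugate

namespace Table

variable (M : Table)

/-- Time reversal of a state (post-collision convention). -/
def rev (p : Phase) : Phase := flipDir (M.pre p)

lemma measurable_rev : Measurable M.rev := continuous_flipDir.measurable.comp M.measurable_pre

lemma exists_small_pos {p : Phase} (h : M.Reg p) :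
    ∃ δ > 0, ∀ s ∈ Ioo 0 δ, ∀ i, 0 < M.ell i (shift s p).1 :=
  ⟨M.hit p, (M.hit_spec h).1, (M.hit_spec h).2.1⟩

lemma reg_rev {p : Phase} (h : M.Reg p) : M.Reg (M.rev p) := by
  have hx : (M.rev p).1 = p.1 := M.pre_fst p
  refine ⟨fun i => by rw [hx]; exact h.1 i, fun i hi => ?_, by rw [hx]; exact h.2.2⟩
  rw [hx] at hi
  rw [rev, M.pre_of_ell h.2.2 hi]
  change 0 < M.rate i (M.reflDir i p.2 + (Real.pi : Dir))
  rw [M.rate_add_pi, M.rate_reflDir, neg_neg]
  exact h.2.1 i hi

lemma good_rev {p : Phase} (h : M.Good p) : M.Good (M.rev p) := by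
  obtain ⟨w, hw⟩ := M.exists_pre_eq_rpw p
  rw [rev, hw]
  exact (h.rpw w).flipDir

lemma start_rev {p : Phase} (h : M.Start p) : M.Start (M.rev p) :=
  ⟨M.reg_rev h.1, M.good_rev h.2⟩

lemma rev_rev {p : Phase} (h : M.Reg p) : M.rev (M.rev p) = p := by
  rw [rev, rev, M.pre_flipDir, M.pre_pre h.2.2, flipDir_flipDir]

lemma rev_of_pos {p : Phase} (h : ∀ i, 0 < M.ell i p.1) : M.rev p = flipDir p := by
  rw [rev, M.pre_of_pos h]

lemma pre_rev {p : Phase} (h : M.Reg p) : M.pre (M.rev p) = flipDir p := by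
  rw [rev, M.pre_flipDir, M.pre_pre h.2.2]

/-- Just before a regular state the orbit is inside. -/
lemma exists_small_pre_pos {p : Phase} (h : M.Reg p) :
    ∃ δ > 0, ∀ s ∈ Ioo 0 δ, ∀ i, 0 < M.ell i (shift (-s) (M.pre p)).1 := by
  obtain ⟨δ, hδ, hs⟩ := M.exists_small_pos (M.reg_rev h)
  refine ⟨δ, hδ, fun s hs' i => ?_⟩
  have := hs s hs' i
  have e : shift s (M.rev p) = flipDir (shift (-s) (M.pre p)) := by
    rw [flipDir_shift, neg_neg]; rfl
  rw [e] at this
  exact this

open Classical in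
/-- The billiard flow, total on phase space. -/
def flow (t : ℝ) (p : Phase) : Phase :=
  if M.Start p then (if 0 ≤ t then M.fwd t p else M.rev (M.fwd (-t) (M.rev p))) else p

lemma flow_of_nonneg {p : Phase} (h : M.Start p) {t : ℝ} (ht : 0 ≤ t) :
    M.flow t p = M.fwd t p := by
  simp [flow, h, ht]

lemma flow_of_neg {p : Phase} (h : M.Start p) {t : ℝ} (ht : t < 0) :
    M.flow t p = M.rev (M.fwd (-t) (M.rev p)) := by
  simp [flow, h, not_le.2 ht]

lemma flow_of_not_start {p : Phase} (h : ¬ M.Start p) (t : ℝ) : M.flow t p = p := by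
  simp [flow, h]

lemma exists_flow_eq_rpw {p : Phase} (h : M.Start p) (t : ℝ) :
    ∃ w, M.flow t p = M.rpw w (shift t p) := by
  rcases le_or_gt 0 t with ht | ht
  · rw [M.flow_of_nonneg h ht]; exact M.exists_fwd_eq_rpw h ht
  · rw [M.flow_of_neg h ht]
    obtain ⟨v, hv⟩ := M.exists_fwd_eq_rpw (M.start_rev h) (neg_pos.2 ht).le
    obtain ⟨a, ha⟩ := M.exists_pre_eq_rpw p
    obtain ⟨b, hb⟩ := M.exists_pre_eq_rpw (M.fwd (-t) (M.rev p))
    refine ⟨b ++ (v ++ a), ?_⟩
    rw [rev, hb, hv, rev, ha, ← flipDir_flipDir (shift (-t) _), flipDir_shift (-t),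
      flipDir_flipDir, neg_neg, M.rpw_flipDir, M.rpw_flipDir, flipDir_flipDir, ← M.rpw_shift,
      rpw_append, rpw_append]

lemma isOrb_flow {p : Phase} (h : M.Start p) : M.IsOrb fun t => M.flow t p := by
  intro t
  have hr := M.start_rev h
  rcases lt_trichotomy t 0 with ht | rfl | ht
  · have hu : 0 < -t := neg_pos.2 ht
    have hq := M.fwd_reg hr hu.le
    refine ⟨?_, ?_, ?_⟩
    · simp only [M.flow_of_neg h ht]; exact M.reg_rev hq
    · obtain ⟨δ, hδ, hl⟩ := M.fwd_left hr hu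
      obtain ⟨δ', hδ', hp'⟩ := M.exists_small_pre_pos hq
      refine ⟨min (min δ δ') (-t), lt_min (lt_min hδ hδ') hu, fun s hs => ?_⟩
      have hs1 : s < -t := hs.2.trans_le (min_le_right _ _)
      have hts : t + s < 0 := by linarith
      simp only [M.flow_of_neg h hts, M.flow_of_neg h ht]
      rcases hs.1.eq_or_lt with rfl | hs0
      · simp [shift_zero]
      · have hs2 : s < min δ δ' := hs.2.trans_le (min_le_left _ _)
        rw [show -(t + s) = -t - s by ring, hl s ⟨hs0, hs2.trans_le (min_le_left _ _)⟩,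
          M.rev_of_pos (hp' s ⟨hs0, hs2.trans_le (min_le_right _ _)⟩), flipDir_shift, neg_neg]
        rfl
    · obtain ⟨δ, hδ, hl⟩ := M.fwd_right hr hu.le
      obtain ⟨δ', hδ', hp'⟩ := M.exists_small_pos hq
      refine ⟨min δ δ', lt_min hδ hδ', fun s hs => ?_⟩
      have hts : t - s < 0 := by linarith [hs.1]
      simp only [M.flow_of_neg h hts, M.flow_of_neg h ht]
      rw [show -(t - s) = -t + s by ring, hl s ⟨hs.1.le, hs.2.trans_le (min_le_left _ _)⟩,
        M.rev_of_pos (hp' s ⟨hs.1, hs.2.trans_le (min_le_right _ _)⟩), M.pre_rev hq, flipDir_shift]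
  · simp only [M.flow_of_nonneg h le_rfl, M.fwd_zero h]
    refine ⟨h.1, ?_, ?_⟩
    · obtain ⟨δ, hδ, hl⟩ := M.fwd_right h le_rfl
      refine ⟨δ, hδ, fun s hs => ?_⟩
      rw [zero_add, M.flow_of_nonneg h hs.1]
      simpa [M.fwd_zero h] using hl s hs
    · obtain ⟨δ, hδ, hl⟩ := M.fwd_right hr le_rfl
      obtain ⟨δ', hδ', hp'⟩ := M.exists_small_pos (M.reg_rev h.1)
      refine ⟨min δ δ', lt_min hδ hδ', fun s hs => ?_⟩
      rw [zero_sub, M.flow_of_neg h (neg_lt_zero.2 hs.1), neg_neg]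
      have := hl s ⟨hs.1.le, hs.2.trans_le (min_le_left _ _)⟩
      rw [zero_add, M.fwd_zero hr] at this
      rw [this, M.rev_of_pos (hp' s ⟨hs.1, hs.2.trans_le (min_le_right _ _)⟩), flipDir_shift, rev,
        flipDir_flipDir]
  · refine ⟨?_, ?_, ?_⟩
    · simp only [M.flow_of_nonneg h ht.le]; exact M.fwd_reg h ht.le
    · obtain ⟨δ, hδ, hl⟩ := M.fwd_right h ht.le
      refine ⟨δ, hδ, fun s hs => ?_⟩
      simp only [M.flow_of_nonneg h (by linarith [hs.1] : 0 ≤ t + s), M.flow_of_nonneg h ht.le]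
      exact hl s hs
    · obtain ⟨δ, hδ, hl⟩ := M.fwd_left h ht
      refine ⟨min δ t, lt_min hδ ht, fun s hs => ?_⟩
      have h0 : 0 ≤ t - s := by linarith [hs.2.trans_le (min_le_right δ t)]
      simp only [M.flow_of_nonneg h h0, M.flow_of_nonneg h ht.le]
      exact hl s ⟨hs.1, hs.2.trans_le (min_le_left _ _)⟩

lemma start_flow {p : Phase} (h : M.Start p) (t : ℝ) : M.Start (M.flow t p) := by
  obtain ⟨w, hw⟩ := M.exists_flow_eq_rpw h t
  exact ⟨(M.isOrb_flow h t).1, by rw [hw]; exact (h.2.shift t).rpw w⟩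

lemma flow_zero (p : Phase) : M.flow 0 p = p := by
  by_cases h : M.Start p
  · rw [M.flow_of_nonneg h le_rfl, M.fwd_zero h]
  · exact M.flow_of_not_start h 0

lemma IsOrb.comp_add {M : Table} {γ : ℝ → Phase} (h : M.IsOrb γ) (c : ℝ) :
    M.IsOrb fun t => γ (t + c) := by
  intro t
  obtain ⟨h1, ⟨δ, hδ, h2⟩, ⟨δ', hδ', h3⟩⟩ := h (t + c)
  refine ⟨h1, ⟨δ, hδ, fun s hs => ?_⟩, ⟨δ', hδ', fun s hs => ?_⟩⟩
  · simp only [add_right_comm t s c]; exact h2 s hs
  · simp only [sub_add_eq_add_sub]; exact h3 s hs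

/-- Orbits are determined by one state. -/
lemma IsOrb.eq {M : Table} {γ γ' : ℝ → Phase} (h : M.IsOrb γ) (h' : M.IsOrb γ') {t₀ : ℝ}
    (h0 : γ t₀ = γ' t₀) : γ = γ' := by
  set E : Set ℝ := {t | γ t = γ' t}
  have key : ∀ t, ∃ δ > 0, ∀ r, |r - t| < δ → (γ r = γ' r ↔ γ t = γ' t) := by
    intro t
    obtain ⟨h1, ⟨δ₁, hδ₁, a₁⟩, ⟨δ₂, hδ₂, b₁⟩⟩ := h t
    obtain ⟨h1', ⟨δ₃, hδ₃, a₂⟩, ⟨δ₄, hδ₄, b₂⟩⟩ := h' t
    refine ⟨min (min δ₁ δ₂) (min δ₃ δ₄), by positivity, fun r hr => ?_⟩
    simp only [lt_min_iff] at hr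
    rcases lt_trichotomy r t with hl | rfl | hl
    · have ea := b₁ (t - r) ⟨sub_pos.2 hl, by linarith [neg_le_abs (r - t), hr.1.2]⟩
      have eb := b₂ (t - r) ⟨sub_pos.2 hl, by linarith [neg_le_abs (r - t), hr.2.2]⟩
      rw [sub_sub_cancel] at ea eb
      rw [ea, eb]
      constructor
      · intro e
        have e2 := congrArg M.pre (shift_injective _ e)
        rwa [M.pre_pre h1.2.2, M.pre_pre h1'.2.2] at e2
      · intro e; rw [e]
    · exact Iff.rfl
    · have ea := a₁ (r - t) ⟨(sub_pos.2 hl).le, by linarith [le_abs_self (r - t), hr.1.1]⟩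
      have eb := a₂ (r - t) ⟨(sub_pos.2 hl).le, by linarith [le_abs_self (r - t), hr.2.1]⟩
      rw [add_sub_cancel] at ea eb
      rw [ea, eb]
      exact ⟨fun e => shift_injective _ e, fun e => by rw [e]⟩
  have hopen : ∀ S : Set ℝ, (∀ t ∈ S, ∃ δ > 0, ∀ r, |r - t| < δ → r ∈ S) → IsOpen S :=
    fun S hS => Metric.isOpen_iff.2 fun t ht => by
      obtain ⟨δ, hδ, hr⟩ := hS t ht
      exact ⟨δ, hδ, fun r hr' => hr r (by simpa [Real.dist_eq] using hr')⟩
  have hE : E = univ := by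
    refine IsClopen.eq_univ ⟨⟨hopen _ ?_⟩, hopen _ ?_⟩ ⟨t₀, h0⟩
    · intro t ht
      obtain ⟨δ, hδ, hr⟩ := key t
      exact ⟨δ, hδ, fun r hr' e => ht ((hr r hr').1 e)⟩
    · intro t ht
      obtain ⟨δ, hδ, hr⟩ := key t
      exact ⟨δ, hδ, fun r hr' => (hr r hr').2 ht⟩
  exact funext fun t => (hE ▸ mem_univ t : t ∈ E)

lemma flow_add (s t : ℝ) (p : Phase) : M.flow (s + t) p = M.flow s (M.flow t p) := by
  by_cases h : M.Start p
  · have h1 := (M.isOrb_flow h).comp_add t
    have h2 := M.isOrb_flow (M.start_flow h t)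
    have := h1.eq h2 (t₀ := 0) (by simp [M.flow_zero])
    exact congrFun this s
  · rw [M.flow_of_not_start h, M.flow_of_not_start h, M.flow_of_not_start h]

lemma start_flow_iff (t : ℝ) (p : Phase) : M.Start (M.flow t p) ↔ M.Start p := by
  refine ⟨fun h => ?_, fun h => M.start_flow h t⟩
  by_contra hn
  rw [M.flow_of_not_start hn] at h
  exact hn h

lemma bijOn_flow (t : ℝ) : BijOn (M.flow t) {p | M.Start p} {p | M.Start p} := by
  refine InvOn.bijOn (f' := M.flow (-t)) ⟨fun p _ => ?_, fun p _ => ?_⟩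
    (fun p hp => M.start_flow hp t) (fun p hp => M.start_flow hp (-t))
  · rw [← M.flow_add, neg_add_cancel, M.flow_zero]
  · rw [← M.flow_add, add_neg_cancel, M.flow_zero]

lemma measurable_flow (hS : MeasurableSet {p | M.Start p}) (t : ℝ) : Measurable (M.flow t) := by
  classical
  unfold flow
  refine Measurable.ite hS ?_ measurable_id
  by_cases ht : 0 ≤ t
  · simp only [if_pos ht]; exact M.measurable_fwd t
  · simp only [if_neg ht]
    exact M.measurable_rev.comp ((M.measurable_fwd _).comp M.measurable_rev)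

lemma IsOrb.lip_pos {M : Table} {γ : ℝ → Phase} (h : M.IsOrb γ) (s t : ℝ) :
    dist (γ s).1 (γ t).1 ≤ |s - t| := by
  wlog hst : s ≤ t generalizing s t
  · rw [dist_comm, abs_sub_comm]; exact this t s (le_of_not_ge hst)
  have hd : ∀ r, HasDerivWithinAt (fun a => (γ a).1) (vec (γ r).2) (Ici r) r := by
    intro r
    obtain ⟨δ, hδ, hr⟩ := (h r).2.1
    have hl : HasDerivWithinAt (fun a : ℝ => (γ r).1 + ((a - r : ℝ) : ℂ) * vec (γ r).2)
        (vec (γ r).2) (Ici r) r := by
      have := (((((hasDerivAt_id r).sub_const r).ofReal_comp).mul_const (vec (γ r).2)).const_add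
        (γ r).1).hasDerivWithinAt (s := Ici r)
      simpa using this
    refine hl.congr_of_eventuallyEq ?_ (by simp)
    filter_upwards [Ico_mem_nhdsGE (show r < r + δ by linarith)] with a ha
    have := hr (a - r) ⟨by linarith [ha.1], by linarith [ha.2]⟩
    rw [add_sub_cancel] at this
    simp [this, shift]
  have hc : Continuous fun a => (γ a).1 := by
    refine continuous_iff_continuousAt.2 fun r => ?_
    rw [continuousAt_iff_continuous_left_right]
    refine ⟨?_, (hd r).continuousWithinAt⟩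
    obtain ⟨δ, hδ, hr⟩ := (h r).2.2
    have hl : ContinuousWithinAt
        (fun a : ℝ => (γ r).1 + ((a - r : ℝ) : ℂ) * vec (M.pre (γ r)).2) (Iic r) r := by
      fun_prop
    refine hl.congr_of_eventuallyEq ?_ (by simp)
    filter_upwards [Ioc_mem_nhdsLE (show r - δ < r by linarith)] with a ha
    rcases ha.2.eq_or_lt with rfl | hlt
    · simp
    · have := hr (r - a) ⟨by linarith, by linarith [ha.1]⟩
      rw [sub_sub_cancel] at this
      simp [this, shift, M.pre_fst]
  have := norm_image_sub_le_of_norm_deriv_right_le_segment (C := 1) hc.continuousOn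
    (fun x _ => hd x) (fun x _ => (norm_vec _).le) t ⟨hst, le_rfl⟩
  rw [dist_comm, dist_eq_norm, abs_sub_comm, abs_of_nonneg (sub_nonneg.2 hst)]
  linarith

end Table

end Vale.Agent.P099
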